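import Vale.Agent.P200.Basic

/-!
Regular sequences of quadrics: first syzygies, Hilbert function, copies in disjoint variables.
-/

noncomputable section

namespace Vale.Agent.P200.Quad

open MvPolynomial Module

variable {σ τ : Type*} {K : Type*} [Field K]

/-- Every syzygy of a regular sequence has entries in the ideal. -/
theorem syzygy [Fintype τ] (f : τ → MvPolynomial σ K) (l : List τ) (hnd : l.Nodup)
    (hmem : ∀ t, t ∈ l) (hf : ∀ t, HomogPos (f t)) (hreg : RegList ⊥ (l.map f))
    (w : τ → MvPolynomial σ K) (h : ∑ t, f t * w t = 0) :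
    ∀ t, w t ∈ Ideal.span (Set.range f) := by
  classical
  intro t
  have hp : (l.map f).Perm (((l.erase t).map f) ++ [f t]) :=
    ((List.perm_cons_erase (hmem t)).trans (List.perm_append_singleton t _).symm).map f
      |>.trans (by simp)
  have hall : ∀ g ∈ l.map f, HomogPos g := by
    intro g hg
    obtain ⟨s, -, rfl⟩ := List.mem_map.1 hg
    exact hf s
  obtain ⟨-, hn⟩ := regList_concat.1 (regList_perm hp hall homogI_bot hreg)
  rw [sup_bot_eq] at hn
  have hle : Ideal.ofList ((l.erase t).map f) ≤ Ideal.span (Set.range f) :=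
    Ideal.span_mono fun g hg => by
      obtain ⟨s, -, rfl⟩ := List.mem_map.1 hg
      exact ⟨s, rfl⟩
  refine hle (hn (w t) ?_)
  rw [← Finset.add_sum_erase _ _ (Finset.mem_univ t)] at h
  rw [eq_neg_of_add_eq_zero_left h]
  refine neg_mem (sum_mem fun s hs => Ideal.mul_mem_right _ _ (Ideal.subset_span ?_))
  exact List.mem_map_of_mem (hnd.mem_erase_iff.2 ⟨Finset.ne_of_mem_erase hs, hmem s⟩)

section hilbert

/-- Regular lists of quadrics of one length give the same Hilbert function. -/
theorem finrank_degPart_congr [Finite σ] :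
    ∀ (L L' : List (MvPolynomial σ K)), L.length = L'.length →
      (∀ g ∈ L, g.IsHomogeneous 2) → (∀ g ∈ L', g.IsHomogeneous 2) →
      ∀ J J' : Ideal (MvPolynomial σ K), HomogI J → HomogI J' → (1 : MvPolynomial σ K) ∉ J →
        (1 : MvPolynomial σ K) ∉ J' →
        RegList J L → RegList J' L' →
        (∀ t, finrank K (degPart t J) = finrank K (degPart t J')) →
        ∀ t, finrank K (degPart t (Ideal.ofList L ⊔ J)) =
          finrank K (degPart t (Ideal.ofList L' ⊔ J')) := by
  intro L
  induction L with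
  | nil =>
    intro L' hlen _ _ J J' _ _ _ _ _ _ hdim t
    rw [List.eq_nil_of_length_eq_zero hlen.symm, Ideal.ofList_nil, bot_sup_eq, bot_sup_eq]
    exact hdim t
  | cons g L ih =>
    intro L' hlen hL hL' J J' hJ hJ' h1 h1' hreg hreg' hdim t
    obtain ⟨g', L', rfl⟩ : ∃ g' L'', L' = g' :: L'' := by
      cases L' with
      | nil => simp at hlen
      | cons a b => exact ⟨a, b, rfl⟩
    have hg := hL g (by simp)
    have hg' := hL' g' (by simp)
    have hne : ∀ {I : Ideal (MvPolynomial σ K)} {q : MvPolynomial σ K}, (1 : MvPolynomial σ K) ∉ I →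
        Nzd I q → q ≠ 0 := fun hI hq h0 => hI (hq 1 (by simp [h0]))
    have hone : ∀ {I : Ideal (MvPolynomial σ K)} {q : MvPolynomial σ K}, HomogI I →
        q.IsHomogeneous 2 → (1 : MvPolynomial σ K) ∉ I →
          (1 : MvPolynomial σ K) ∉ Ideal.span {q} ⊔ I := fun hI hq hI1 h => by
      rcases exists_homog_of_mem_sup hI hq (isHomogeneous_one σ K) h with ⟨-, h⟩ | ⟨h, -⟩
      · exact hI1 h
      · omega
    rw [Ideal.ofList_cons, Ideal.ofList_cons, sup_comm (Ideal.span {g}), sup_assoc,
      sup_comm (Ideal.span {g'}), sup_assoc]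
    refine ih L' (by simpa using hlen) (fun q hq => hL q (by simp [hq]))
      (fun q hq => hL' q (by simp [hq])) _ _ (homogI_sup_span hJ hg) (homogI_sup_span hJ' hg')
      (hone hJ hg h1) (hone hJ' hg' h1') hreg.2 hreg'.2 (fun s => ?_) t
    rcases Nat.lt_or_ge s 2 with hs | hs
    · rw [degPart_sup_of_lt hJ hg hs, degPart_sup_of_lt hJ' hg' hs, hdim]
    · obtain ⟨s, rfl⟩ := Nat.exists_eq_add_of_le' hs
      have e := finrank_degPart_sup hJ hg (hne h1 hreg.1) hreg.1 s
      have e' := finrank_degPart_sup hJ' hg' (hne h1' hreg'.1) hreg'.1 s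
      have d1 := hdim s
      have d2 := hdim (s + 2)
      omega

/-- The exponent of the square of a variable. -/
abbrev two (i : σ) : σ →₀ ℕ := Finsupp.single i 2

theorem X_sq_eq (i : σ) : (X i : MvPolynomial σ K) ^ 2 = monomial (two i) 1 :=
  X_pow_eq_monomial

theorem ofList_squares (L : List σ) :
    Ideal.ofList (L.map fun i => (X i : MvPolynomial σ K) ^ 2) =
      Ideal.span ((fun e => monomial e (1 : K)) '' (two '' {i | i ∈ L})) := by
  refine congrArg Ideal.span ?_
  ext g
  simp only [Set.mem_setOf_eq, List.mem_map, Set.mem_image]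
  constructor
  · rintro ⟨i, hi, rfl⟩
    exact ⟨_, ⟨i, hi, rfl⟩, (X_sq_eq i).symm⟩
  · rintro ⟨_, ⟨i, hi, rfl⟩, rfl⟩
    exact ⟨i, hi, X_sq_eq i⟩

theorem two_le_iff {i : σ} {e : σ →₀ ℕ} : two i ≤ e ↔ 2 ≤ e i :=
  Finsupp.single_le_iff

theorem regList_squares : ∀ (L : List σ), L.Nodup →
    RegList (⊥ : Ideal (MvPolynomial σ K)) (L.map fun i => X i ^ 2) := by
  classical
  intro L
  induction L using List.reverseRecOn with
  | nil => intro _; trivial
  | append_singleton L i ih =>
    intro hnd
    obtain ⟨hL, -, hdis⟩ := List.nodup_append.1 hnd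
    rw [List.map_append, List.map_singleton, regList_concat, sup_bot_eq]
    refine ⟨ih hL, fun u hu => ?_⟩
    rw [ofList_squares, mem_ideal_span_monomial_image] at hu ⊢
    intro e he
    obtain ⟨_, ⟨j, hj, rfl⟩, hle⟩ := hu (two i + e) (by
      rw [MvPolynomial.mem_support_iff, X_sq_eq, coeff_monomial_mul, one_mul, ← MvPolynomial.mem_support_iff]
      exact he)
    refine ⟨_, ⟨j, hj, rfl⟩, two_le_iff.2 ?_⟩
    have hne : j ≠ i := fun h => hdis j hj i (by simp) h
    have := two_le_iff.1 hle
    rwa [Finsupp.add_apply, Finsupp.single_eq_of_ne hne, zero_add] at this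

/-- The squares of all variables leave the squarefree monomials. -/
theorem finrank_degPart_squares [Fintype σ] (d : ℕ) :
    finrank K (degPart d (Ideal.ofList ((Finset.univ : Finset σ).toList.map
        fun i => (X i : MvPolynomial σ K) ^ 2))) + (Fintype.card σ).choose d =
      finrank K (homogeneousSubmodule σ K d) := by
  classical
  let A : Finset (σ →₀ ℕ) := Finset.univ.finsuppAntidiag d
  have hA : ∀ e : σ →₀ ℕ, e ∈ A ↔ e.degree = d := fun e => by
    simp [A, Finsupp.degree_eq_sum]
  let p : (σ →₀ ℕ) → Prop := fun e => ∃ i, 2 ≤ e i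
  have hS : homogeneousSubmodule σ K d = restrictSupport K (A : Set (σ →₀ ℕ)) := by
    ext u
    rw [mem_homogeneousSubmodule, mem_restrictSupport_iff]
    constructor
    · intro h e he
      rw [Finset.mem_coe, hA]
      by_contra hne
      exact (MvPolynomial.mem_support_iff.1 he) (h.coeff_eq_zero hne)
    · intro h e he
      have := (hA e).1 (h (MvPolynomial.mem_support_iff.2 he))
      rwa [Finsupp.degree_eq_weight_one] at this
  have hD : degPart d (Ideal.ofList ((Finset.univ : Finset σ).toList.map
      fun i => (X i : MvPolynomial σ K) ^ 2)) =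
      restrictSupport K ((A.filter p : Finset (σ →₀ ℕ)) : Set (σ →₀ ℕ)) := by
    ext u
    rw [mem_degPart, ← mem_homogeneousSubmodule, hS, ofList_squares, mem_restrictSupport_iff,
      mem_restrictSupport_iff, mem_ideal_span_monomial_image]
    constructor
    · rintro ⟨h1, h2⟩ e he
      obtain ⟨_, ⟨i, -, rfl⟩, hle⟩ := h2 e he
      exact Finset.mem_coe.2 (Finset.mem_filter.2 ⟨h1 he, i, two_le_iff.1 hle⟩)
    · intro h
      refine ⟨fun e he => (Finset.mem_filter.1 (h he)).1, fun e he => ?_⟩
      obtain ⟨i, hi⟩ := (Finset.mem_filter.1 (h (Finset.mem_coe.2 he))).2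
      exact ⟨_, ⟨i, by simp, rfl⟩, two_le_iff.2 hi⟩
  rw [hS, hD, finrank_eq_nat_card_basis (basisRestrictSupport K _),
    finrank_eq_nat_card_basis (basisRestrictSupport K _)]
  simp only [Nat.card_eq_fintype_card, Fintype.card_coe, SetLike.coe_sort_coe]
  rw [← Finset.card_filter_add_card_filter_not (s := A) (p := p)]
  congr 1
  rw [← Finset.card_univ, ← Finset.card_powersetCard]
  refine Finset.card_bij' (fun S _ => ∑ i ∈ S, Finsupp.single i 1) (fun e _ => e.support) ?_ ?_ ?_ ?_
  · intro S hS
    rw [Finset.mem_filter, hA, map_sum]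
    refine ⟨by simpa using (Finset.mem_powersetCard.1 hS).2, ?_⟩
    rintro ⟨i, hi⟩
    rw [Finsupp.finsetSum_apply] at hi
    simp only [Finsupp.single_apply, Finset.sum_ite_eq'] at hi
    split_ifs at hi <;> omega
  · intro e he
    rw [Finset.mem_filter, hA] at he
    refine Finset.mem_powersetCard.2 ⟨Finset.subset_univ _, ?_⟩
    rw [← he.1, Finsupp.degree_apply, Finset.card_eq_sum_ones]
    refine Finset.sum_congr rfl fun i hi => ?_
    have h1 := Finsupp.mem_support_iff.1 hi
    have h2 : ¬ 2 ≤ e i := fun h => he.2 ⟨i, h⟩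
    omega
  · intro S hS
    ext i
    simp [Finsupp.finsetSum_apply, Finsupp.single_apply]
  · intro e he
    rw [Finset.mem_filter] at he
    refine Finsupp.ext fun i => ?_
    have h2 : ¬ 2 ≤ e i := fun h => he.2 ⟨i, h⟩
    simp only [Finsupp.finsetSum_apply, Finsupp.single_apply, Finset.sum_ite_eq',
      Finsupp.mem_support_iff]
    split_ifs with h <;> omega

/-- The Hilbert function of as many regular quadrics as variables. -/
theorem finrank_degPart_quadrics [Fintype σ] [Fintype τ] (f : τ → MvPolynomial σ K)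
    (hcard : Fintype.card τ = Fintype.card σ) (hf : ∀ t, (f t).IsHomogeneous 2) (l : List τ)
    (hnd : l.Nodup) (hmem : ∀ t, t ∈ l) (hreg : RegList ⊥ (l.map f)) (d : ℕ) :
    finrank K (degPart d (Ideal.span (Set.range f))) + (Fintype.card σ).choose d =
      finrank K (homogeneousSubmodule σ K d) := by
  classical
  have h := finrank_degPart_congr (l.map f)
    ((Finset.univ : Finset σ).toList.map fun i => (X i : MvPolynomial σ K) ^ 2)
    (by
      rw [List.length_map, List.length_map, Finset.length_toList, Finset.card_univ, ← hcard,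
        ← List.toFinset_card_of_nodup hnd, Finset.eq_univ_iff_forall.2 fun t =>
          List.mem_toFinset.2 (hmem t), Finset.card_univ])
    (fun g hg => by obtain ⟨t, -, rfl⟩ := List.mem_map.1 hg; exact hf t)
    (fun g hg => by
      obtain ⟨i, -, rfl⟩ := List.mem_map.1 hg
      exact isHomogeneous_X_pow i 2)
    ⊥ ⊥ homogI_bot homogI_bot (by simp) (by simp) hreg
    (regList_squares _ (Finset.nodup_toList _)) (fun _ => rfl) d
  rw [sup_bot_eq, sup_bot_eq] at h
  have hspan : Ideal.span (Set.range f) = Ideal.ofList (l.map f) := by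
    refine congrArg Ideal.span ?_
    ext g
    simp only [Set.mem_range, Set.mem_setOf_eq, List.mem_map]
    exact ⟨fun ⟨t, ht⟩ => ⟨t, hmem t, ht⟩, fun ⟨t, _, ht⟩ => ⟨t, ht⟩⟩
  rw [hspan, h, finrank_degPart_squares]

end hilbert

section copies

variable {R : Type*} [CommRing R] [Algebra K R]

/-- A functional applied to all coefficients. -/
def coeffW (φ : R →ₗ[K] K) : MvPolynomial σ R →ₗ[K] MvPolynomial σ K where
  toFun u := ∑ e ∈ u.support, monomial e (φ (coeff e u))
  map_add' u v := by
    classical
    ext e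
    simp only [coeff_sum, coeff_monomial, Finset.sum_ite_eq', coeff_add, MvPolynomial.mem_support_iff]
    split_ifs with h1 h2 h3 h4 h5 h6 <;> simp_all
    · rw [← map_add, h1, map_zero]
  map_smul' c u := by
    classical
    ext e
    simp only [coeff_sum, coeff_monomial, Finset.sum_ite_eq', coeff_smul, MvPolynomial.mem_support_iff,
      RingHom.id_apply]
    split_ifs with h1 h2 <;> simp_all

theorem coeff_coeffW (φ : R →ₗ[K] K) (u : MvPolynomial σ R) (e : σ →₀ ℕ) :
    coeff e (coeffW φ u) = φ (coeff e u) := by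
  classical
  simp only [coeffW, LinearMap.coe_mk, AddHom.coe_mk, coeff_sum, coeff_monomial,
    Finset.sum_ite_eq', MvPolynomial.mem_support_iff]
  split_ifs with h
  · rfl
  · rw [not_not.1 h, map_zero]

theorem coeffW_map_mul (φ : R →ₗ[K] K) (g : MvPolynomial σ K) (u : MvPolynomial σ R) :
    coeffW φ (map (algebraMap K R) g * u) = g * coeffW φ u := by
  classical
  ext e
  rw [coeff_coeffW, coeff_mul, coeff_mul, map_sum]
  refine Finset.sum_congr rfl fun x _ => ?_
  rw [coeff_map, coeff_coeffW, ← Algebra.smul_def, map_smul, smul_eq_mul]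

/-- Membership in an ideal extended to the coefficient algebra. -/
theorem mem_mapR_iff {I : Ideal (MvPolynomial σ K)} {u : MvPolynomial σ R} :
    u ∈ I.map (map (algebraMap K R)) ↔ ∀ φ : R →ₗ[K] K, coeffW φ u ∈ I := by
  classical
  constructor
  · intro hu φ
    suffices ∀ r : MvPolynomial σ R, coeffW φ (r * u) ∈ I by simpa using this 1
    induction hu using Submodule.span_induction with
    | mem x hx =>
      intro r
      obtain ⟨j, hj, rfl⟩ := hx
      rw [mul_comm, coeffW_map_mul]
      exact Ideal.mul_mem_right _ _ hj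
    | zero => intro r; simp
    | add a b _ _ ha hb => intro r; rw [mul_add, map_add]; exact add_mem (ha r) (hb r)
    | smul c x _ hx => intro r; rw [smul_eq_mul, ← mul_assoc]; exact hx _
  · intro h
    let B := Basis.ofVectorSpace K R
    let ι : Finset _ := u.support.biUnion fun e => (B.repr (coeff e u)).support
    have hu : u = ∑ k ∈ ι, C (B k) * map (algebraMap K R) (coeffW (B.coord k) u) := by
      ext e
      simp only [coeff_sum, coeff_C_mul, coeff_map, coeff_coeffW]
      conv_lhs => rw [← B.linearCombination_repr (coeff e u)]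
      rw [Finsupp.linearCombination_apply, Finsupp.sum]
      refine (Finset.sum_subset ?_ ?_).trans (Finset.sum_congr rfl fun k _ => ?_)
      · intro k hk
        refine Finset.mem_biUnion.2 ⟨e, ?_, hk⟩
        rw [MvPolynomial.mem_support_iff]
        intro h0
        simp [h0] at hk
      · intro k _ hk
        simp [Finsupp.notMem_support_iff.1 hk]
      · rw [Algebra.smul_def, mul_comm]
        rfl
    rw [hu]
    exact sum_mem fun k _ => Ideal.mul_mem_left _ _ (Ideal.mem_map_of_mem _ (h _))

theorem nzd_mapR {I : Ideal (MvPolynomial σ K)} {g : MvPolynomial σ K} (h : Nzd I g)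
    {u : MvPolynomial σ R}
    (hu : map (algebraMap K R) g * u ∈ I.map (map (algebraMap K R))) :
    u ∈ I.map (map (algebraMap K R)) :=
  mem_mapR_iff.2 fun φ => h _ (by rw [← coeffW_map_mul]; exact mem_mapR_iff.1 hu φ)

variable {ρ : Type*}

/-- A regular sequence stays regular after a surjection onto polynomials over an algebra. -/
theorem regList_pullback (Ψ : MvPolynomial ρ K →+* MvPolynomial σ R) (hΨ : Function.Surjective Ψ)
    (r : MvPolynomial σ K → MvPolynomial ρ K) (hr : ∀ q, Ψ (r q) = map (algebraMap K R) q) :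
    ∀ (L : List (MvPolynomial σ K)) (I : Ideal (MvPolynomial σ K)), RegList I L →
      RegList ((I.map (map (algebraMap K R))).comap Ψ) (L.map r) := by
  intro L
  induction L with
  | nil => intro I _; trivial
  | cons g L ih =>
    intro I h
    refine ⟨fun u hu => ?_, ?_⟩
    · rw [Ideal.mem_comap, map_mul, hr] at hu
      exact nzd_mapR h.1 hu
    · have he : Ideal.span {r g} ⊔ (I.map (map (algebraMap K R))).comap Ψ =
          ((Ideal.span {g} ⊔ I).map (map (algebraMap K R))).comap Ψ := by
        have hle : RingHom.ker Ψ ≤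
            Ideal.span {r g} ⊔ (I.map (map (algebraMap K R))).comap Ψ :=
          le_sup_of_le_right (Ideal.comap_mono bot_le)
        conv_lhs => rw [← sup_eq_left.2 hle, ← Ideal.comap_map_of_surjective' Ψ hΨ]
        rw [Ideal.map_sup, Ideal.map_comap_of_surjective Ψ hΨ, Ideal.map_span, Set.image_singleton,
          hr, Ideal.map_sup, Ideal.map_span, Set.image_singleton]
      show RegList (Ideal.span {r g} ⊔ (I.map (map (algebraMap K R))).comap Ψ) (L.map r)
      rw [he]
      exact ih _ h.2

end copies

/-- A regular sequence in new variables continues one in the other variables. -/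
theorem regList_append_rename {σ ρ : Type*} (ι : σ → ρ) (hι : Function.Injective ι)
    (L : List (MvPolynomial σ K)) (hreg : RegList ⊥ L) (L₀ : List (MvPolynomial ρ K))
    (h0 : ∀ g ∈ L₀, ∃ (α : Type) (κ : α → ρ) (q : MvPolynomial α K),
      (∀ x, κ x ∉ Set.range ι) ∧ g = rename κ q) :
    RegList (Ideal.ofList L₀) (L.map (rename ι)) := by
  classical
  let S := MvPolynomial ρ K
  let Z : Ideal S := Ideal.ofList L₀ ⊔ Ideal.span (Set.range fun i => X (ι i))
  let R := S ⧸ Z
  let ψ : ρ → MvPolynomial σ R := fun p =>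
    if h : p ∈ Set.range ι then X h.choose else C (Ideal.Quotient.mk Z (X p))
  have hψι : ∀ i, ψ (ι i) = X i := fun i => by
    have h : ι i ∈ Set.range ι := ⟨i, rfl⟩
    simp only [ψ, dif_pos h]
    exact congrArg X (hι h.choose_spec)
  have hψn : ∀ p, p ∉ Set.range ι → ψ p = C (Ideal.Quotient.mk Z (X p)) := fun p hp => dif_neg hp
  let Ψ : S →ₐ[K] MvPolynomial σ R := aeval ψ
  have hout : ∀ g ∈ L₀, Ψ g = C (Ideal.Quotient.mk Z g) := by
    intro g hg
    obtain ⟨α, κ, q, hκ, rfl⟩ := h0 g hg
    have e : Ψ.comp (rename κ) =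
        ((IsScalarTower.toAlgHom K R (MvPolynomial σ R)).comp (Ideal.Quotient.mkₐ K Z)).comp
          (rename κ) :=
      algHom_ext fun x => by
        rw [AlgHom.comp_apply, AlgHom.comp_apply, rename_X]
        exact (aeval_X ψ (κ x)).trans (hψn _ (hκ x))
    exact AlgHom.congr_fun e q
  have hout0 : ∀ g ∈ L₀, Ψ g = 0 := fun g hg => by
    have hgZ : g ∈ Z := Ideal.mem_sup_left (Ideal.subset_span hg)
    rw [hout g hg, Ideal.Quotient.eq_zero_iff_mem.2 hgZ, map_zero]
  have hr : ∀ q, Ψ (rename ι q) = map (algebraMap K R) q := fun q => by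
    rw [show Ψ (rename ι q) = aeval (ψ ∘ ι) q from aeval_rename ι ψ q,
      show ψ ∘ ι = X from funext hψι]
    induction q using MvPolynomial.induction_on with
    | C c => rw [aeval_C, map_C]; rfl
    | add a b ha hb => rw [map_add, map_add, ha, hb]
    | mul_X a i ha => rw [map_mul, map_mul, ha, aeval_X, map_X]
  have hsurj : Function.Surjective Ψ := fun u => by
    induction u using MvPolynomial.induction_on with
    | C c =>
      obtain ⟨g, rfl⟩ := Ideal.Quotient.mk_surjective c
      induction g using MvPolynomial.induction_on with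
      | C a => exact ⟨C a, by rw [show Ψ (C a) = algebraMap K _ a from aeval_C ψ a]; rfl⟩
      | add a b ha hb =>
        obtain ⟨x, hx⟩ := ha
        obtain ⟨y, hy⟩ := hb
        exact ⟨x + y, by rw [map_add, hx, hy, map_add (Ideal.Quotient.mk Z), map_add]⟩
      | mul_X a p ha =>
        obtain ⟨x, hx⟩ := ha
        by_cases hp : p ∈ Set.range ι
        · refine ⟨0, ?_⟩
          obtain ⟨i, rfl⟩ := hp
          rw [map_zero, map_mul (Ideal.Quotient.mk Z),
            Ideal.Quotient.eq_zero_iff_mem.2 (Ideal.mem_sup_right (Ideal.subset_span ⟨i, rfl⟩) :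
              (X (ι i) : S) ∈ Z), mul_zero, map_zero]
        · refine ⟨x * X p, ?_⟩
          rw [map_mul, hx, show Ψ (X p) = ψ p from aeval_X ψ p, hψn p hp,
            map_mul (Ideal.Quotient.mk Z), map_mul C]
    | add a b ha hb =>
      obtain ⟨x, rfl⟩ := ha
      obtain ⟨y, rfl⟩ := hb
      exact ⟨x + y, map_add _ _ _⟩
    | mul_X a i ha =>
      obtain ⟨x, rfl⟩ := ha
      exact ⟨x * X (ι i), by rw [map_mul, show Ψ (X (ι i)) = ψ (ι i) from aeval_X ψ _, hψι]⟩
  -- the kernel
  let J : Ideal S := Ideal.ofList L₀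
  let μ : ρ → S ⧸ J := fun p => if p ∈ Set.range ι then 0 else Ideal.Quotient.mk J (X p)
  have hZ : ∀ a ∈ Z, (aeval μ : S →ₐ[K] S ⧸ J) a = 0 := by
    intro a ha
    refine (sup_le ?_ ?_ : Z ≤ RingHom.ker (aeval μ : S →ₐ[K] S ⧸ J)) ha
    · refine Ideal.span_le.2 fun g hg => ?_
      obtain ⟨α, κ, q, hκ, rfl⟩ := h0 g hg
      have e : (aeval μ : S →ₐ[K] S ⧸ J).comp (rename κ) =
          (Ideal.Quotient.mkₐ K J).comp (rename κ) :=
        algHom_ext fun x => by
          rw [AlgHom.comp_apply, AlgHom.comp_apply, rename_X, aeval_X]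
          exact if_neg (hκ x)
      rw [SetLike.mem_coe, RingHom.mem_ker]
      refine (AlgHom.congr_fun e q).trans ?_
      exact Ideal.Quotient.eq_zero_iff_mem.2 (Ideal.subset_span hg)
    · rw [Ideal.span_le]
      rintro _ ⟨i, rfl⟩
      show aeval μ (X (ι i)) = 0
      rw [aeval_X]
      exact if_pos ⟨i, rfl⟩
  let θ : R →ₐ[K] S ⧸ J := Ideal.Quotient.liftₐ Z (aeval μ) hZ
  let Θ : MvPolynomial σ R →+* S ⧸ J :=
    eval₂Hom θ.toRingHom fun i => Ideal.Quotient.mk J (X (ι i))
  have hcomp : Θ.comp Ψ.toRingHom = Ideal.Quotient.mk J := by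
    refine MvPolynomial.ringHom_ext (fun a => ?_) fun p => ?_
    · show Θ (Ψ (C a)) = _
      rw [show Ψ (C a) = algebraMap K _ a from aeval_C ψ a,
        IsScalarTower.algebraMap_apply K R (MvPolynomial σ R),
        show algebraMap R (MvPolynomial σ R) = C from rfl,
        show Θ (C (algebraMap K R a)) = θ (algebraMap K R a) from eval₂Hom_C _ _ _,
        AlgHom.commutes]
      rfl
    · show Θ (Ψ (X p)) = _
      rw [show Ψ (X p) = ψ p from aeval_X ψ p]
      by_cases hp : p ∈ Set.range ι
      · obtain ⟨i, rfl⟩ := hp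
        rw [hψι]
        exact eval₂Hom_X' _ _ _
      · rw [hψn p hp]
        refine (eval₂Hom_C _ _ _).trans ?_
        show aeval μ (X p) = _
        rw [aeval_X]
        exact if_neg hp
  have hker : RingHom.ker Ψ.toRingHom = J := by
    refine le_antisymm (fun u hu => ?_) (Ideal.span_le.2 fun g hg => hout0 g hg)
    have := RingHom.congr_fun hcomp u
    rw [RingHom.comp_apply, RingHom.mem_ker.1 hu, map_zero] at this
    exact Ideal.Quotient.eq_zero_iff_mem.1 this.symm
  have := regList_pullback Ψ.toRingHom hsurj (rename ι) hr L ⊥ hreg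
  rwa [Ideal.map_bot, ← RingHom.ker_eq_comap_bot, hker] at this

theorem regList_append {J : Ideal (MvPolynomial σ K)} :
    ∀ {L L' : List (MvPolynomial σ K)}, RegList J L → RegList (Ideal.ofList L ⊔ J) L' →
      RegList J (L ++ L') := by
  intro L L'
  induction L generalizing J with
  | nil => intro _ h; simpa using h
  | cons g L ih =>
    intro h h'
    rw [Ideal.ofList_cons, sup_comm (Ideal.span {g}), sup_assoc] at h'
    exact ⟨h.1, ih h.2 h'⟩

/-- Regular sequences in disjoint copies of the variables form one regular sequence. -/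
theorem regList_copies {n : ℕ} (k : ℕ) {f : Fin n → MvPolynomial (Fin n) K}
    (_hf : ∀ i, (f i).IsHomogeneous 2) (hreg : RegList ⊥ (List.ofFn f)) :
    ∃ l : List (Fin k × Fin n), l.Nodup ∧ (∀ p, p ∈ l) ∧
      RegList ⊥ (l.map fun p => rename (Prod.mk p.1) (f p.2)) := by
  let g : Fin k × Fin n → MvPolynomial (Fin k × Fin n) K := fun p => rename (Prod.mk p.1) (f p.2)
  let blk : Fin k → List (Fin k × Fin n) := fun a => (List.finRange n).map (Prod.mk a)
  suffices key : ∀ as : List (Fin k), as.Nodup → RegList ⊥ ((as.flatMap blk).map g) by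
    refine ⟨(List.finRange k).flatMap blk, ?_, ?_, key _ (List.nodup_finRange k)⟩
    · exact (List.nodup_finRange k).product (List.nodup_finRange n)
    · intro p
      simp [blk]
  intro as
  induction as using List.reverseRecOn with
  | nil => intro _; trivial
  | append_singleton as a ih =>
    intro hnd
    obtain ⟨has, -, hdis⟩ := List.nodup_append.1 hnd
    rw [List.flatMap_append, List.map_append]
    refine regList_append (ih has) ?_
    rw [sup_bot_eq]
    have := regList_append_rename (Prod.mk a) (Prod.mk_right_injective a) (List.ofFn f) hreg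
      ((as.flatMap blk).map g) (by
        intro q hq
        obtain ⟨⟨b, i⟩, hbi, rfl⟩ := List.mem_map.1 hq
        obtain ⟨c, hc, hci⟩ := List.mem_flatMap.1 hbi
        obtain ⟨j, -, hj⟩ := List.mem_map.1 hci
        refine ⟨Fin n, Prod.mk b, f i, ?_, rfl⟩
        rintro x ⟨y, hy⟩
        have hab : a = b := congrArg Prod.fst hy
        have hcb : c = b := congrArg Prod.fst hj
        exact hdis c hc a (by simp) (hcb.trans hab.symm))
    convert this using 1
    simp [blk, g, List.ofFn_eq_map, Function.comp_def]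

end Vale.Agent.P200.Quad
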