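import Vale.Agent.P200.Basic
import Vale.Agent.P200.Linalg

/-!
Filtering by the monomials in the extra variables, for any number of retained variables.
-/

namespace Vale.Agent.P200.Quad

open MvPolynomial Module

variable {K : Type*} [Field K] {m c : ℕ}

/-- The exponent in the extra variables. -/
noncomputable def yPart (e : Fin m ⊕ Fin c →₀ ℕ) : Fin m →₀ ℕ :=
  (Finsupp.sumFinsuppEquivProdFinsupp e).1

/-- The exponent in the three variables. -/
noncomputable def xPart (e : Fin m ⊕ Fin c →₀ ℕ) : Fin c →₀ ℕ :=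
  (Finsupp.sumFinsuppEquivProdFinsupp e).2

lemma yPart_apply (e : Fin m ⊕ Fin c →₀ ℕ) (k : Fin m) : yPart e k = e (Sum.inl k) := rfl

lemma xPart_apply (e : Fin m ⊕ Fin c →₀ ℕ) (i : Fin c) : xPart e i = e (Sum.inr i) := rfl

lemma parts_sumElim (μ : Fin m →₀ ℕ) (α : Fin c →₀ ℕ) :
    yPart (Finsupp.sumElim μ α) = μ ∧ xPart (Finsupp.sumElim μ α) = α := by
  constructor <;> ext i <;> simp [yPart_apply, xPart_apply]

lemma sumElim_parts (e : Fin m ⊕ Fin c →₀ ℕ) : Finsupp.sumElim (yPart e) (xPart e) = e := by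
  ext (k | i) <;> simp [yPart_apply, xPart_apply]

lemma parts_add (e e' : Fin m ⊕ Fin c →₀ ℕ) :
    yPart (e + e') = yPart e + yPart e' ∧ xPart (e + e') = xPart e + xPart e' := by
  constructor <;> ext i <;> simp [yPart_apply, xPart_apply]

lemma degree_parts (e : Fin m ⊕ Fin c →₀ ℕ) :
    e.degree = (yPart e).degree + (xPart e).degree := by
  simp [Finsupp.degree_eq_sum, Fintype.sum_sum_type, yPart_apply, xPart_apply]

/-- The coefficient of a monomial in the extra variables. -/
noncomputable def coefY (μ : Fin m →₀ ℕ) : MvPolynomial (Fin m ⊕ Fin c) K →ₗ[K] MvPolynomial (Fin c) K :=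
  (basisMonomials (Fin m ⊕ Fin c) K).constr K
    fun e => if yPart e = μ then monomial (xPart e) 1 else 0

lemma coefY_monomial (μ : Fin m →₀ ℕ) (e : Fin m ⊕ Fin c →₀ ℕ) (a : K) :
    coefY μ (monomial e a) = if yPart e = μ then monomial (xPart e) a else 0 := by
  have h : monomial e a = a • (basisMonomials (Fin m ⊕ Fin c) K e) := by
    simp [coe_basisMonomials, smul_monomial]
  rw [h, map_smul, coefY, Basis.constr_basis]
  split_ifs <;> simp [smul_monomial]

lemma coeff_coefY (μ : Fin m →₀ ℕ) (α : Fin c →₀ ℕ) (F : MvPolynomial (Fin m ⊕ Fin c) K) :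
    coeff α (coefY μ F) = coeff (Finsupp.sumElim μ α) F := by
  classical
  induction F using MvPolynomial.induction_on' with
  | monomial e a =>
    rw [coefY_monomial, coeff_monomial]
    split_ifs with h1 h2 h2
    · rw [coeff_monomial, if_pos (by rw [h2, (parts_sumElim μ α).2])]
    · rw [coeff_monomial, if_neg fun hα => h2 (by rw [← sumElim_parts e, h1, hα])]
    · exact absurd (by rw [h2, (parts_sumElim μ α).1]) h1
    · simp
  | add p q hp hq => simp [hp, hq]

lemma eq_zero_of_coefY {F : MvPolynomial (Fin m ⊕ Fin c) K} (h : ∀ μ, coefY μ F = 0) : F = 0 := by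
  ext e
  have := congrArg (coeff (xPart e)) (h (yPart e))
  rwa [coeff_coefY, sumElim_parts, coeff_zero] at this

lemma coefY_homogeneous {F : MvPolynomial (Fin m ⊕ Fin c) K} {D : ℕ} (hF : F.IsHomogeneous D)
    (μ : Fin m →₀ ℕ) : (coefY μ F).IsHomogeneous (D - μ.degree) ∧ (D < μ.degree → coefY μ F = 0) := by
  have key : ∀ α : Fin c →₀ ℕ, coeff α (coefY μ F) ≠ 0 → μ.degree + α.degree = D := by
    intro α hα
    rw [coeff_coefY] at hα
    have := hF.coeff_eq_zero.mt hα
    push Not at this
    rw [degree_parts, (parts_sumElim μ α).1, (parts_sumElim μ α).2] at this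
    omega
  refine ⟨fun α hα => ?_, fun hlt => ?_⟩
  · have := key α hα
    rw [show Finsupp.weight (1 : Fin c → ℕ) α = α.degree by rw [Finsupp.degree_eq_weight_one]; rfl]
    omega
  · ext α
    rw [coeff_zero]
    by_contra hne
    have := key α hne
    omega

lemma coefY_X_inr (μ : Fin m →₀ ℕ) (i : Fin c) (F : MvPolynomial (Fin m ⊕ Fin c) K) :
    coefY μ (X (Sum.inr i) * F) = X i * coefY μ F := by
  induction F using MvPolynomial.induction_on' with
  | monomial e a =>
    have hy : yPart (Finsupp.single (Sum.inr i) 1 + e) = yPart e := by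
      ext k; simp [yPart_apply]
    have hx : xPart (Finsupp.single (Sum.inr i) 1 + e) = Finsupp.single i 1 + xPart e := by
      ext k; simp [xPart_apply, Finsupp.single_apply]
    rw [X, monomial_mul, one_mul, coefY_monomial, coefY_monomial, hy, hx]
    split_ifs
    · rw [X, monomial_mul, one_mul]
    · simp
  | add p q hp hq => rw [mul_add, map_add, hp, hq, map_add, mul_add]

lemma coefY_X_inl (μ : Fin m →₀ ℕ) (k : Fin m) (F : MvPolynomial (Fin m ⊕ Fin c) K) :
    coefY μ (X (Sum.inl k) * F) =
      if 1 ≤ μ k then coefY (μ - Finsupp.single k 1) F else 0 := by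
  induction F using MvPolynomial.induction_on' with
  | monomial e a =>
    have hy : yPart (Finsupp.single (Sum.inl k) 1 + e) = Finsupp.single k 1 + yPart e := by
      ext l; simp [yPart_apply, Finsupp.single_apply]
    have hx : xPart (Finsupp.single (Sum.inl k) 1 + e) = xPart e := by
      ext l; simp [xPart_apply]
    rw [X, monomial_mul, one_mul, coefY_monomial, hy, hx]
    split_ifs with h1 h2 h2
    · rw [coefY_monomial, if_pos]
      rw [← h1, add_tsub_cancel_left]
    · exfalso
      rw [← h1] at h2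
      simp at h2
    · rw [coefY_monomial, if_neg]
      intro h3
      refine h1 ?_
      rw [h3]
      ext l
      rcases eq_or_ne k l with rfl | hl
      · simp; omega
      · simp [hl]
    · rfl
  | add p q hp hq =>
    rw [mul_add, map_add, hp, hq]
    split_ifs <;> simp

variable (I : Ideal (MvPolynomial (Fin m ⊕ Fin c) K))

/-- Coefficients at `μ` of members of `I` in degree `t + |μ|` with no earlier coefficient. -/
noncomputable def leadPart (μ : Fin m →₀ ℕ) (t : ℕ) : Submodule K (MvPolynomial (Fin c) K) :=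
  (degPart (t + μ.degree) I ⊓
    ⨅ ν : {ν : Fin m →₀ ℕ // toLex ν < toLex μ}, LinearMap.ker (coefY (K := K) ν.1)).map (coefY μ)

/-- The layer at `μ`. -/
noncomputable def layer (μ : Fin m →₀ ℕ) : Ideal (MvPolynomial (Fin c) K) :=
  Ideal.span (⋃ t, (leadPart I μ t : Set (MvPolynomial (Fin c) K)))

lemma leadPart_le (μ : Fin m →₀ ℕ) (t : ℕ) : leadPart I μ t ≤ homogeneousSubmodule (Fin c) K t := by
  rintro _ ⟨F, ⟨hF, -⟩, rfl⟩
  have := (coefY_homogeneous (mem_degPart.1 hF).1 μ).1
  rwa [Nat.add_sub_cancel] at this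

lemma X_mul_leadPart (μ : Fin m →₀ ℕ) (t : ℕ) (i : Fin c) {u : MvPolynomial (Fin c) K}
    (hu : u ∈ leadPart I μ t) : X i * u ∈ leadPart I μ (t + 1) := by
  obtain ⟨F, ⟨hF, hker⟩, rfl⟩ := hu
  refine ⟨X (Sum.inr i) * F, ⟨mem_degPart.2 ⟨?_, Ideal.mul_mem_left _ _ hF.2⟩, ?_⟩, coefY_X_inr μ i F⟩
  · rw [show t + 1 + μ.degree = 1 + (t + μ.degree) by omega]
    exact (isHomogeneous_X K _).mul hF.1
  · simp only [SetLike.mem_coe, Submodule.mem_iInf, LinearMap.mem_ker] at hker ⊢
    intro ν
    rw [coefY_X_inr, hker ν, mul_zero]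

lemma homogeneousComponent_layer {μ : Fin m →₀ ℕ} {u : MvPolynomial (Fin c) K} (hu : u ∈ layer I μ) :
    ∀ t, homogeneousComponent t u ∈ leadPart I μ t := by
  induction hu using Submodule.span_induction with
  | mem x hx =>
    obtain ⟨s, hs⟩ := Set.mem_iUnion.1 hx
    intro t
    rw [homogeneousComponent_of_mem (leadPart_le I μ s hs)]
    split_ifs with h
    · exact h ▸ hs
    · exact zero_mem _
  | zero => intro t; simp
  | add a b _ _ ha hb => intro t; rw [map_add]; exact add_mem (ha t) (hb t)
  | smul r x _ hx =>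
    induction r using MvPolynomial.induction_on with
    | C c =>
      intro t
      rw [smul_eq_mul, homogeneousComponent_C_mul, ← smul_eq_C_mul]
      exact Submodule.smul_mem _ _ (hx t)
    | add p q hp hq => intro t; rw [add_smul, map_add]; exact add_mem (hp t) (hq t)
    | mul_X p i hp =>
      intro t
      rw [smul_eq_mul, mul_comm p, mul_assoc, homogeneousComponent_mul_left (isHomogeneous_X K i)]
      split_ifs with h
      · have := X_mul_leadPart I μ (t - 1) i (hp (t - 1))
        rwa [Nat.sub_add_cancel h, smul_eq_mul] at this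
      · exact zero_mem _

lemma degPart_layer (μ : Fin m →₀ ℕ) (t : ℕ) : degPart t (layer I μ) = leadPart I μ t := by
  refine le_antisymm (fun u hu => ?_) fun u hu =>
    mem_degPart.2 ⟨leadPart_le I μ t hu, Ideal.subset_span (Set.mem_iUnion.2 ⟨t, hu⟩)⟩
  have := homogeneousComponent_layer I (mem_degPart.1 hu).2 t
  rwa [homogeneousComponent_eq_self (mem_degPart.1 hu).1] at this

lemma layer_le_succ (μ : Fin m →₀ ℕ) (k : Fin m) :
    layer I μ ≤ layer I (Finsupp.single k 1 + μ) := by
  refine Ideal.span_le.2 fun u hu => ?_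
  obtain ⟨t, ⟨F, ⟨hF, hker⟩, rfl⟩⟩ := Set.mem_iUnion.1 hu
  refine Ideal.subset_span (Set.mem_iUnion.2 ⟨t, X (Sum.inl k) * F,
    ⟨mem_degPart.2 ⟨?_, Ideal.mul_mem_left _ _ hF.2⟩, ?_⟩, ?_⟩)
  · rw [map_add, Finsupp.degree_single, show t + (1 + μ.degree) = 1 + (t + μ.degree) by omega]
    exact (isHomogeneous_X K _).mul hF.1
  · simp only [SetLike.mem_coe, Submodule.mem_iInf, LinearMap.mem_ker] at hker ⊢
    rintro ⟨ν, hν⟩
    show coefY ν (X (Sum.inl k) * F) = 0
    rw [coefY_X_inl]
    split_ifs with h1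
    · refine hker ⟨ν - Finsupp.single k 1, ?_⟩
      have he : Finsupp.single k 1 + (ν - Finsupp.single k 1) = ν :=
        add_tsub_cancel_of_le (Finsupp.single_le_iff.2 h1)
      have h2 : toLex (Finsupp.single k 1) + toLex (ν - Finsupp.single k 1) <
          toLex (Finsupp.single k 1) + toLex μ := by
        rw [← toLex_add, he, ← toLex_add]
        exact hν
      exact lt_of_add_lt_add_left h2
    · rfl
  · show coefY (Finsupp.single k 1 + μ) (X (Sum.inl k) * F) = coefY μ F
    rw [coefY_X_inl, if_pos (by simp), add_tsub_cancel_left]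

lemma coefY_zero_mem (hI : HomogI I) {F : MvPolynomial (Fin m ⊕ Fin c) K} (hF : F ∈ I) :
    coefY 0 F ∈ layer I 0 := by
  rw [← sum_homogeneousComponent F, map_sum]
  refine sum_mem fun D _ => Ideal.subset_span (Set.mem_iUnion.2 ⟨D, homogeneousComponent D F,
    ⟨mem_degPart.2 ⟨by simpa using homogeneousComponent_isHomogeneous D F, hI F hF D⟩, ?_⟩, rfl⟩)
  simp only [SetLike.mem_coe, Submodule.mem_iInf, LinearMap.mem_ker]
  rintro ⟨ν, hν⟩
  exact absurd hν (not_lt.2 (Finsupp.toLex_monotone (zero_le (a := ν))))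

lemma layer_mono {μ μ' : Fin m →₀ ℕ} (h : μ ≤ μ') : layer I μ ≤ layer I μ' := by
  obtain ⟨δ, rfl⟩ := le_iff_exists_add.1 h
  clear h
  induction δ using Finsupp.induction with
  | zero => simp
  | single_add k n δ hk hn ih =>
    refine ih.trans ?_
    clear ih hn
    induction n with
    | zero => simp
    | succ n ihn =>
      refine ihn.trans ((layer_le_succ I _ k).trans (le_of_eq ?_))
      congr 1
      rw [Finsupp.single_add]
      abel

/-- Exponents in the extra variables of degree at most `D`. -/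
noncomputable def yExps (m D : ℕ) : Finset (Fin m →₀ ℕ) :=
  (Finset.range (D + 1)).biUnion fun t => Finset.univ.finsuppAntidiag t

lemma mem_yExps {D : ℕ} {μ : Fin m →₀ ℕ} : μ ∈ yExps m D ↔ μ.degree ≤ D := by
  simp [yExps, Finsupp.degree_eq_sum, Nat.lt_succ_iff]

lemma finrank_degPart_eq_sum (D : ℕ) :
    finrank K (degPart D I) =
      ∑ μ ∈ yExps m D, finrank K (degPart (D - μ.degree) (layer I μ)) := by
  classical
  let E := (yExps m D).image toLex
  let Fm : Finset (Lex (Fin m →₀ ℕ)) → Submodule K (MvPolynomial (Fin m ⊕ Fin c) K) := fun U =>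
    degPart D I ⊓ ⨅ ν : {ν // ν ∈ E ∧ ν ∉ U}, LinearMap.ker (coefY (ofLex ν.1))
  have key : ∀ U : Finset (Lex (Fin m →₀ ℕ)), U ⊆ E → (∀ ν ∈ E, ∀ μ ∈ U, μ ≤ ν → ν ∈ U) →
      finrank K (Fm U) =
        ∑ μ ∈ U, finrank K (degPart (D - (ofLex μ).degree) (layer I (ofLex μ))) := by
    intro U
    induction U using Finset.induction_on_min with
    | empty =>
      intro _ _
      rw [Finset.sum_empty]
      refine Submodule.finrank_eq_zero.2 ((Submodule.eq_bot_iff _).2 fun F hF => ?_)
      obtain ⟨hF1, hF2⟩ := hF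
      simp only [SetLike.mem_coe, Submodule.mem_iInf, LinearMap.mem_ker] at hF2
      refine eq_zero_of_coefY fun μ => ?_
      by_cases hμ : μ ∈ yExps m D
      · exact hF2 ⟨toLex μ, Finset.mem_image_of_mem _ hμ, by simp⟩
      · exact (coefY_homogeneous hF1.1 μ).2 (by rw [mem_yExps] at hμ; omega)
    | insert a s has ih =>
      intro hsub hup
      have ha : a ∉ s := fun h => lt_irrefl a (has a h)
      obtain ⟨α, hα, rfl⟩ := Finset.mem_image.1 (hsub (Finset.mem_insert_self a s))
      have hs : ∀ ν ∈ E, ∀ μ ∈ s, μ ≤ ν → ν ∈ s := fun ν hν μ hμ hle => by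
        rcases Finset.mem_insert.1 (hup ν hν μ (Finset.mem_insert_of_mem hμ) hle) with h | h
        · exact absurd (h ▸ hle) (not_le.2 (has μ hμ))
        · exact h
      rw [Finset.sum_insert ha, ← ih (fun x hx => hsub (Finset.mem_insert_of_mem hx)) hs]
      have hfin : FiniteDimensional K (Fm (insert (toLex α) s)) :=
        Submodule.finiteDimensional_of_le inf_le_left
      have e := finrank_map_add_ker (coefY α) (Fm (insert (toLex α) s))
      have hker : Fm (insert (toLex α) s) ⊓ LinearMap.ker (coefY α) = Fm s := by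
        ext F
        simp only [Fm, Submodule.mem_inf, Submodule.mem_iInf, LinearMap.mem_ker]
        constructor
        · rintro ⟨⟨h1, h2⟩, h3⟩
          refine ⟨h1, fun ν => ?_⟩
          by_cases hν : ν.1 = toLex α
          · rw [hν]; exact h3
          · exact h2 ⟨ν.1, ν.2.1, by simp [hν, ν.2.2]⟩
        · rintro ⟨h1, h2⟩
          refine ⟨⟨h1, fun ν => h2 ⟨ν.1, ν.2.1, fun h => ν.2.2 (Finset.mem_insert_of_mem h)⟩⟩, ?_⟩
          exact h2 ⟨toLex α, Finset.mem_image_of_mem _ hα, ha⟩
      have himg : (Fm (insert (toLex α) s)).map (coefY α) =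
          degPart (D - α.degree) (layer I α) := by
        rw [degPart_layer, leadPart]
        congr 1
        rw [show D - α.degree + α.degree = D by rw [mem_yExps] at hα; omega]
        ext F
        simp only [Fm, Submodule.mem_inf, Submodule.mem_iInf, LinearMap.mem_ker]
        constructor
        · rintro ⟨h1, h2⟩
          refine ⟨h1, fun ν => ?_⟩
          by_cases hν : ν.1 ∈ yExps m D
          · refine h2 ⟨toLex ν.1, Finset.mem_image_of_mem _ hν, fun hmem => ?_⟩
            rcases Finset.mem_insert.1 hmem with h | h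
            · exact absurd ν.2 (by rw [h]; exact lt_irrefl _)
            · exact absurd ν.2 (not_lt.2 (le_of_lt (has _ h)))
          · exact (coefY_homogeneous h1.1 ν.1).2 (by rw [mem_yExps] at hν; omega)
        · rintro ⟨h1, h2⟩
          refine ⟨h1, fun ν => h2 ⟨ofLex ν.1, ?_⟩⟩
          by_contra hcon
          exact ν.2.2 (hup ν.1 ν.2.1 _ (Finset.mem_insert_self _ _) (not_lt.1 hcon))
      rw [hker, himg] at e
      simp only [ofLex_toLex]
      convert e.symm using 2
      rfl
  have h := key E Finset.Subset.rfl fun ν hν _ _ _ => hν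
  rw [Finset.sum_image fun x _ y _ hxy => toLex.injective hxy] at h
  have htop : Fm E = degPart D I := by
    ext F
    simp only [Fm, Submodule.mem_inf, Submodule.mem_iInf, LinearMap.mem_ker]
    exact ⟨fun h => h.1, fun h => ⟨h, fun ν => absurd ν.2.1 ν.2.2⟩⟩
  rw [htop] at h
  convert h using 2
  simp only [ofLex_toLex]
  rfl

end Vale.Agent.P200.Quad
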