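import Vale.Agent.P200.Basic

/-!
The statement proved for regular sequences of quadrics filling all variables.
-/

namespace Vale.Agent.P200.Quad

open MvPolynomial Module

/-- Squarefree models, monotone in the ideal, for ideals containing `c` quadrics in `c` variables
forming a regular sequence. -/
def Artinian (K : Type*) [Field K] : Prop :=
  ∀ (c : ℕ) (f : Fin c → MvPolynomial (Fin c) K), (∀ i, (f i).IsHomogeneous 2) →
    RegList ⊥ (List.ofFn f) →
    ∃ T : Ideal (MvPolynomial (Fin c) K) → ℕ → Finset (Fin c →₀ ℕ),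
      ∀ J, (∀ i, f i ∈ J) →
        (∀ d, (∀ e ∈ T J d, e.degree = d) ∧
          (T J d).card = finrank K (degPart d J) ∧
          (∀ e : Fin c →₀ ℕ, e.degree = d → (∃ i, 2 ≤ e i) → e ∈ T J d) ∧
          ∀ e ∈ T J d, ∀ i, e + Finsupp.single i 1 ∈ T J (d + 1)) ∧
        ∀ J', J ≤ J' → ∀ d, T J d ⊆ T J' d

end Vale.Agent.P200.Quad
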