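import Vale.Agent.P200.Assemble
import Vale.Agent.P200.Quad.Spec
import Vale.Agent.P200.Quad.Layer

/-!
From as many quadrics as variables to any number of variables and any field.
-/

universe u

namespace Vale.Agent.P200.Quad

open MvPolynomial Module

variable {K : Type*} [Field K]

/-- Linear forms completing `ls` define a graded change of variables. -/
lemma exists_change {n m c : ℕ} (hnm : n = m + c) (ls : Fin m → MvPolynomial (Fin n) K)
    (hls : ∀ k, (ls k).IsHomogeneous 1) (hind : LinearIndependent K ls) :
    ∃ Φ : MvPolynomial (Fin m ⊕ Fin c) K ≃ₐ[K] MvPolynomial (Fin n) K,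
      (∀ k, Φ (X (Sum.inl k)) = ls k) ∧
      ∀ t u, homogeneousComponent t (Φ u) = Φ (homogeneousComponent t u) := by
  classical
  set H1 := homogeneousSubmodule (Fin n) K 1
  let ls' : Fin m → H1 := fun k => ⟨ls k, hls k⟩
  have hind' : LinearIndependent K ls' := LinearIndependent.of_comp H1.subtype hind
  obtain ⟨C, hC⟩ := Submodule.exists_isCompl (Submodule.span K (Set.range ls'))
  have : FiniteDimensional K H1 := by infer_instance
  have : Module.Free K C := Module.Free.of_divisionRing K C
  have hfin : finrank K H1 = n := by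
    have hli : LinearIndependent K (fun i : Fin n => (X i : MvPolynomial (Fin n) K)) := by
      rw [Fintype.linearIndependent_iff]
      intro g hg i
      have := congrArg (coeff (Finsupp.single i 1)) hg
      simpa [coeff_sum, coeff_X, Finsupp.single_left_inj one_ne_zero] using this
    have e := finrank_span_eq_card hli
    rw [Fintype.card_fin, ← homogeneousSubmodule_one_eq_span_X] at e
    exact e
  have hCc : finrank K C = c := by
    have := Submodule.finrank_add_eq_of_isCompl hC
    rw [finrank_span_eq_card hind', Fintype.card_fin, hfin] at this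
    omega
  let bC : Basis (Fin c) K C := Module.finBasisOfFinrankEq K C hCc
  let v : Fin m ⊕ Fin c → MvPolynomial (Fin n) K := Sum.elim ls fun i => ((bC i : H1) : MvPolynomial (Fin n) K)
  have hv : ∀ s, (v s).IsHomogeneous 1 := by
    rintro (k | i)
    · exact hls k
    · exact (bC i : H1).2
  let θ : MvPolynomial (Fin m ⊕ Fin c) K →ₐ[K] MvPolynomial (Fin n) K := aeval v
  have hhom : ∀ {t : ℕ} {u : MvPolynomial (Fin m ⊕ Fin c) K},
      u.IsHomogeneous t → (θ u).IsHomogeneous t := fun {t u} hu => by
    have := hu.aeval v hv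
    rw [one_mul] at this
    exact this
  have hcomp : ∀ t u, homogeneousComponent t (θ u) = θ (homogeneousComponent t u) := by
    intro t u
    conv_lhs => rw [← sum_homogeneousComponent u, map_sum, map_sum]
    have hh : ∀ i, homogeneousComponent t (θ (homogeneousComponent i u)) =
        if t = i then θ (homogeneousComponent i u) else 0 := fun i =>
      homogeneousComponent_of_mem (hhom (homogeneousComponent_isHomogeneous i u))
    simp only [hh, Finset.sum_ite_eq, Finset.mem_range]
    split_ifs with h
    · rfl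
    · rw [homogeneousComponent_eq_zero t u (by omega), map_zero]
  have hX : ∀ i, ∃ w, θ w = X i := by
    intro i
    have hmem : (⟨X i, isHomogeneous_X K i⟩ : H1) ∈ Submodule.span K (Set.range ls') ⊔ C :=
      hC.sup_eq_top ▸ Submodule.mem_top
    suffices hsub : ∀ z ∈ Submodule.span K (Set.range ls') ⊔ C,
        (z : MvPolynomial (Fin n) K) ∈ θ.range from hsub _ hmem
    intro z hz
    obtain ⟨y, hy, c, hc, rfl⟩ := Submodule.mem_sup.1 hz
    rw [Submodule.coe_add]
    refine add_mem ?_ ?_
    · clear hz hc
      induction hy using Submodule.span_induction with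
      | mem x hx => obtain ⟨k, rfl⟩ := hx; exact ⟨X (Sum.inl k), aeval_X _ _⟩
      | zero => exact zero_mem _
      | add a b _ _ ha hb => rw [Submodule.coe_add]; exact add_mem ha hb
      | smul r a _ ha => rw [Submodule.coe_smul]; exact Subalgebra.smul_mem _ ha r
    · have := congrArg (fun w : C => ((w : H1) : MvPolynomial (Fin n) K)) (bC.sum_repr ⟨c, hc⟩)
      simp only [Submodule.coe_sum, Submodule.coe_smul] at this
      rw [← this]
      exact sum_mem fun k _ => Subalgebra.smul_mem _ (show _ ∈ θ.range from ⟨X (Sum.inr k), aeval_X _ _⟩) _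
  choose w hw using hX
  have hsurj : Function.Surjective θ := by
    intro p
    refine ⟨aeval w p, ?_⟩
    rw [← AlgHom.comp_apply, show θ.comp (aeval w) = AlgHom.id K _ from
      MvPolynomial.algHom_ext fun i => by simp [hw]]
    rfl
  have hinj : Function.Injective θ := by
    rw [injective_iff_map_eq_zero]
    intro u hu
    rw [← sum_homogeneousComponent u]
    refine Finset.sum_eq_zero fun t _ => ?_
    let e : Fin m ⊕ Fin c ≃ Fin n := Fintype.equivFinOfCardEq (by simp; omega)
    have hmaps : ∀ x ∈ homogeneousSubmodule (Fin m ⊕ Fin c) K t,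
        θ.toLinearMap x ∈ homogeneousSubmodule (Fin n) K t := fun x hx => hhom hx
    let θt := θ.toLinearMap.restrict hmaps
    have hdim : finrank K (homogeneousSubmodule (Fin m ⊕ Fin c) K t) =
        finrank K (homogeneousSubmodule (Fin n) K t) := by
      have hmap : (homogeneousSubmodule (Fin m ⊕ Fin c) K t).map
          (renameEquiv K e).toLinearMap = homogeneousSubmodule (Fin n) K t := by
        refine le_antisymm ?_ fun y hy => ?_
        · rintro _ ⟨x, hx, rfl⟩
          exact hx.rename_isHomogeneous
        · exact ⟨rename e.symm y, (hy : y.IsHomogeneous t).rename_isHomogeneous, by simp [rename_rename]⟩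
      rw [← hmap]
      exact (Submodule.equivMapOfInjective _ (renameEquiv K e).injective _).finrank_eq
    have hs : Function.Surjective θt := by
      rintro ⟨y, hy⟩
      obtain ⟨x, rfl⟩ := hsurj y
      refine ⟨⟨homogeneousComponent t x, homogeneousComponent_mem _ _⟩, Subtype.ext ?_⟩
      show θ (homogeneousComponent t x) = θ x
      rw [← hcomp, homogeneousComponent_eq_self hy]
    have h0 := (LinearMap.injective_iff_surjective_of_finrank_eq_finrank hdim).2 hs
    have hz : θt ⟨homogeneousComponent t u, homogeneousComponent_mem _ _⟩ = 0 := by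
      refine Subtype.ext ?_
      show θ (homogeneousComponent t u) = 0
      rw [← hcomp, hu, map_zero]
    exact congrArg Subtype.val (h0 (hz.trans (map_zero θt).symm))
  exact ⟨AlgEquiv.ofBijective θ ⟨hinj, hsurj⟩, fun k => aeval_X _ _, fun t u => hcomp t u⟩

/-- Setting the extra variables to zero. -/
noncomputable def projX (K : Type*) [Field K] (m c : ℕ) :
    MvPolynomial (Fin m ⊕ Fin c) K →ₐ[K] MvPolynomial (Fin c) K :=
  aeval (Sum.elim (fun _ => 0) X)

lemma projX_eq_coefY {m c : ℕ} (u : MvPolynomial (Fin m ⊕ Fin c) K) : projX K m c u = coefY 0 u := by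
  induction u using MvPolynomial.induction_on with
  | C a =>
    rw [C_apply, coefY_monomial]
    have hy : yPart (0 : Fin m ⊕ Fin c →₀ ℕ) = 0 := by ext k; simp [yPart]
    have hx : xPart (0 : Fin m ⊕ Fin c →₀ ℕ) = 0 := by ext k; simp [xPart]
    rw [if_pos hy, hx, ← C_apply, ← C_apply]
    exact aeval_C _ _
  | add p q hp hq => rw [map_add, map_add, hp, hq]
  | mul_X p s hp =>
    rw [map_mul, hp, mul_comm p]
    rcases s with k | i
    · rw [coefY_X_inl, if_neg (by simp)]
      simp [projX]
    · rw [coefY_X_inr, mul_comm]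
      simp [projX]

lemma ker_projX (m c : ℕ) : RingHom.ker (projX K m c).toRingHom =
    Ideal.ofList (List.ofFn fun k : Fin m => (X (Sum.inl k) : MvPolynomial (Fin m ⊕ Fin c) K)) := by
  refine le_antisymm (fun u hu => ?_) (Ideal.span_le.2 ?_)
  · let ι : MvPolynomial (Fin c) K →ₐ[K] MvPolynomial (Fin m ⊕ Fin c) K := rename Sum.inr
    suffices hd : ∀ v, v - ι (projX K m c v) ∈
        Ideal.ofList (List.ofFn fun k : Fin m => (X (Sum.inl k) : MvPolynomial (Fin m ⊕ Fin c) K)) by
      have := hd u
      rw [show projX K m c u = 0 from hu, map_zero, sub_zero] at this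
      exact this
    intro v
    induction v using MvPolynomial.induction_on with
    | C a => simp [ι, projX]
    | add p q hp hq =>
      rw [map_add, map_add, add_sub_add_comm]
      exact add_mem hp hq
    | mul_X p s hp =>
      rw [map_mul, map_mul, show p * X s - ι (projX K m c p) * ι (projX K m c (X s)) =
        (p - ι (projX K m c p)) * X s + ι (projX K m c p) * (X s - ι (projX K m c (X s))) by ring]
      refine add_mem (Ideal.mul_mem_right _ _ hp) (Ideal.mul_mem_left _ _ ?_)
      rcases s with k | i
      · simp only [ι, projX, aeval_X, Sum.elim_inl, map_zero, sub_zero]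
        exact Ideal.subset_span (List.mem_ofFn.2 ⟨k, rfl⟩)
      · simp [ι, projX]
  · intro g hg
    obtain ⟨k, rfl⟩ := List.mem_ofFn.1 hg
    simp [projX]

lemma projX_surjective (m c : ℕ) : Function.Surjective (projX K m c) := fun p =>
  ⟨rename Sum.inr p, by
    rw [projX, aeval_rename]
    exact congrArg (fun g => g p) (show aeval (Sum.elim (fun _ : Fin m => (0 : MvPolynomial (Fin c) K)) X ∘ Sum.inr)
      = AlgHom.id K (MvPolynomial (Fin c) K) from MvPolynomial.algHom_ext fun i => by simp)⟩


lemma regList_split {σ : Type*} : ∀ (L₁ L₂ : List (MvPolynomial σ K))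
    (J : Ideal (MvPolynomial σ K)), RegList J (L₁ ++ L₂) → RegList (Ideal.ofList L₁ ⊔ J) L₂
  | [], L₂, J, h => by simpa using h
  | g :: L₁, L₂, J, h => by
    have := regList_split L₁ L₂ _ h.2
    rwa [Ideal.ofList_cons, sup_comm (Ideal.span {g}), sup_assoc]

lemma regList_map_surjective {σ τ : Type*} (π : MvPolynomial σ K →+* MvPolynomial τ K)
    (hπ : Function.Surjective π) :
    ∀ (L : List (MvPolynomial σ K)) (J : Ideal (MvPolynomial σ K)), RingHom.ker π ≤ J →
      RegList J L → RegList (J.map π) (L.map π)
  | [], _, _, _ => trivial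
  | g :: L, J, hJ, ⟨h1, h2⟩ => by
    refine ⟨fun v hv => ?_, ?_⟩
    · obtain ⟨u, rfl⟩ := hπ v
      rw [← map_mul] at hv
      have hu : g * u ∈ (J.map π).comap π := hv
      rw [Ideal.comap_map_of_surjective π hπ, ← RingHom.ker_eq_comap_bot, sup_eq_left.2 hJ] at hu
      exact Ideal.mem_map_of_mem π (h1 u hu)
    · have := regList_map_surjective π hπ L _ (hJ.trans le_sup_right) h2
      rwa [Ideal.map_sup, Ideal.map_span, Set.image_singleton] at this

lemma regList_extI {σ : Type*} {L : Type*} [Field L] [Algebra K L] :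
    ∀ (Ls : List (MvPolynomial σ K)) (J : Ideal (MvPolynomial σ K)), RegList J Ls →
      RegList (extI (L := L) J) (Ls.map (map (algebraMap K L)))
  | [], _, _ => trivial
  | g :: Ls, J, ⟨h1, h2⟩ => by
    refine ⟨nzd_extI h1, ?_⟩
    have := regList_extI (L := L) Ls _ h2
    rwa [extI, Ideal.map_sup, Ideal.map_span, Set.image_singleton] at this

/-- The statement over an infinite field, in split coordinates. -/
lemma exists_stack [Infinite K] (hA : Artinian K) {n m c : ℕ} (hnm : n = m + c)
    {f : Fin c → MvPolynomial (Fin n) K}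
    (hf : ∀ i, (f i).IsHomogeneous 2) (hreg : RegList ⊥ (List.ofFn f))
    {I : Ideal (MvPolynomial (Fin n) K)} (hI : HomogI I) (hfI : ∀ i, f i ∈ I) :
    ∃ s : Set (Fin m ⊕ Fin c →₀ ℕ), (∀ e ∈ s, ∀ e', e ≤ e' → e' ∈ s) ∧
      (∀ i, Finsupp.single (Sum.inr i) 2 ∈ s) ∧
      ∀ D, Nat.card {e : Fin m ⊕ Fin c →₀ ℕ // e.degree = D ∧ e ∈ s} =
        finrank K (degPart D I) := by
  classical
  have hpos : ∀ g ∈ List.ofFn f, HomogPos g := by
    intro g hg
    obtain ⟨i, rfl⟩ := List.mem_ofFn.1 hg
    exact ⟨2, by norm_num, hf i⟩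
  obtain ⟨ls, hls, hregls, hind⟩ := exists_linear_extension hpos hreg m (by simp; omega)
  obtain ⟨Φ, hΦl, hΦ⟩ := exists_change hnm ls hls hind
  let F : Fin c → MvPolynomial (Fin m ⊕ Fin c) K := fun i => Φ.symm (f i)
  have hF : ∀ i, (F i).IsHomogeneous 2 := fun i => by
    have : F i = homogeneousComponent 2 (F i) := by
      apply Φ.injective
      rw [← hΦ, show Φ (F i) = f i from Φ.apply_symm_apply _, homogeneousComponent_eq_self (hf i)]
    rw [this]
    exact homogeneousComponent_isHomogeneous _ _
  set Ys := List.ofFn fun k : Fin m => (X (Sum.inl k) : MvPolynomial (Fin m ⊕ Fin c) K) with hYs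
  have hreg' : RegList ⊥ (List.ofFn F ++ Ys) := by
    have h := regList_equiv Φ (List.ofFn F ++ Ys) ⊥ ?_
    · rwa [show (⊥ : Ideal (MvPolynomial (Fin n) K)).comap Φ.toRingHom = ⊥ from
        Ideal.comap_bot_of_injective _ Φ.injective] at h
    convert hregls using 2
    simp [F, Ys, List.map_ofFn, Function.comp_def, hΦl]
  have hposF : ∀ g ∈ List.ofFn F ++ Ys, HomogPos g := by
    intro g hg
    simp only [List.mem_append, hYs, List.mem_ofFn] at hg
    rcases hg with ⟨i, rfl⟩ | ⟨k, rfl⟩
    exacts [⟨2, by norm_num, hF i⟩, ⟨1, one_pos, isHomogeneous_X K _⟩]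
  have h1 := regList_split _ _ _ (regList_perm List.perm_append_comm hposF homogI_bot hreg')
  rw [sup_bot_eq, hYs, ← ker_projX] at h1
  have h2 := regList_map_surjective (projX K m c).toRingHom (projX_surjective m c) _ _ le_rfl h1
  rw [(Ideal.map_eq_bot_iff_le_ker (projX K m c).toRingHom).2 le_rfl, List.map_ofFn] at h2
  have hπ : ∀ i, (projX K m c).toRingHom (F i) = coefY 0 (F i) := fun i => projX_eq_coefY _
  simp only [Function.comp_def, hπ] at h2
  obtain ⟨T, hT⟩ := hA c (fun i => coefY 0 (F i))
    (fun i => by simpa using (coefY_homogeneous (hF i) 0).1) h2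
  let I' := I.comap Φ.toRingHom
  have hI' : HomogI I' := fun u hu t => by
    show Φ (homogeneousComponent t u) ∈ I
    rw [← hΦ]
    exact hI _ hu t
  have hfl : ∀ μ i, coefY 0 (F i) ∈ layer I' μ := fun μ i =>
    layer_mono I' (zero_le (a := μ)) (coefY_zero_mem I' hI'
      (show Φ (F i) ∈ I by rw [show Φ (F i) = f i from Φ.apply_symm_apply _]; exact hfI i))
  let s : Set (Fin m ⊕ Fin c →₀ ℕ) :=
    {e | xPart e ∈ T (layer I' (yPart e)) (xPart e).degree}
  have hadd : ∀ e ∈ s, ∀ v, e + Finsupp.single v 1 ∈ s := by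
    intro e he v
    simp only [s, Set.mem_ofPred_eq] at he ⊢
    rcases v with k | i
    · have hx : xPart (e + Finsupp.single (Sum.inl k) 1) = xPart e := by
        ext l; simp [xPart_apply]
      have hy : yPart e ≤ yPart (e + Finsupp.single (Sum.inl k) 1) := fun l => by
        simp [yPart_apply]
      rw [hx]
      exact (hT _ (hfl _)).2 _ (layer_mono I' hy) _ he
    · have hx : xPart (e + Finsupp.single (Sum.inr i) 1) = xPart e + Finsupp.single i 1 := by
        ext l; simp [xPart_apply, Finsupp.single_apply]
      have hy : yPart (e + Finsupp.single (Sum.inr i) 1) = yPart e := by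
        ext l; simp [yPart_apply]
      rw [hx, hy, map_add, Finsupp.degree_single]
      exact ((hT _ (hfl _)).1 _).2.2.2 _ he i
  have hup : ∀ e ∈ s, ∀ e', e ≤ e' → e' ∈ s := by
    intro e he e' hle
    obtain ⟨δ, rfl⟩ := le_iff_exists_add.1 hle
    clear hle
    induction δ using Finsupp.induction with
    | zero => simpa using he
    | single_add v n δ hk hn ih =>
      clear hn
      induction n with
      | zero => simpa using ih
      | succ n ihn =>
        rw [Finsupp.single_add, show e + (Finsupp.single v n + Finsupp.single v 1 + δ) =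
          e + (Finsupp.single v n + δ) + Finsupp.single v 1 by abel]
        exact hadd _ ihn v
  refine ⟨s, hup, fun i => ?_, fun D => ?_⟩
  · have hx : xPart (Finsupp.single (Sum.inr i : Fin m ⊕ Fin c) 2) = Finsupp.single i 2 := by
      ext k; simp [xPart_apply, Finsupp.single_apply]
    simp only [s, Set.mem_ofPred_eq, hx]
    exact ((hT _ (hfl _)).1 _).2.2.1 _ rfl ⟨i, by simp⟩
  · rw [← finrank_degPart_comap Φ hΦ I D, finrank_degPart_eq_sum]
    rw [Finset.sum_congr rfl fun μ _ => ((hT _ (hfl μ)).1 (D - μ.degree)).2.1.symm]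
    rw [← Finset.card_sigma]
    refine (Nat.card_congr ?_).trans (Nat.card_eq_finsetCard _)
    refine
      { toFun := fun e => ⟨⟨yPart e.1, xPart e.1⟩, Finset.mem_sigma.2 ?_⟩
        invFun := fun z => ⟨Finsupp.sumElim z.1.1 z.1.2, ?_⟩
        left_inv := fun e => Subtype.ext (sumElim_parts e.1)
        right_inv := fun z => Subtype.ext (Sigma.ext (parts_sumElim _ _).1
          (heq_of_eq (parts_sumElim _ _).2)) }
    · have h1 := e.2.1
      rw [degree_parts] at h1
      refine ⟨mem_yExps.2 (show (yPart e.1).degree ≤ D by omega), ?_⟩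
      show xPart e.1 ∈ T (layer I' (yPart e.1)) (D - (yPart e.1).degree)
      rw [show D - (yPart e.1).degree = (xPart e.1).degree by omega]
      exact e.2.2
    · obtain ⟨h1, h2⟩ := Finset.mem_sigma.1 z.2
      rw [mem_yExps] at h1
      have h3 := ((hT _ (hfl z.1.1)).1 _).1 _ h2
      refine ⟨?_, ?_⟩
      · rw [degree_parts, (parts_sumElim _ _).1, (parts_sumElim _ _).2]
        omega
      · simp only [s, Set.mem_ofPred_eq, (parts_sumElim _ _).1, (parts_sumElim _ _).2, h3]
        exact h2

/-- A monomial ideal with the same Hilbert function, for quadrics over any field, given the case of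
as many quadrics as variables. -/
theorem exists_monomialIdeal {K : Type u} [Field K] (hA : ∀ (L : Type u) [Field L], Artinian L)
    {n c : ℕ} (hcn : c ≤ n) {f : Fin c → MvPolynomial (Fin n) K}
    (hf : ∀ i, (f i).IsHomogeneous 2) (hreg : RegList ⊥ (List.ofFn f))
    {I : Ideal (MvPolynomial (Fin n) K)} (hI : HomogI I) (hfI : ∀ i, f i ∈ I) :
    ∃ s : Set (Fin n →₀ ℕ), (∀ i, Finsupp.single (Fin.castLE hcn i) 2 ∈ s) ∧
      ∀ d, finrank K (degPart d (Ideal.span ((fun e => monomial e (1 : K)) '' s))) =
        finrank K (degPart d I) := by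
  obtain ⟨m, rfl⟩ : ∃ m, n = c + m := ⟨n - c, by omega⟩
  let L := AlgebraicClosure K
  let φ := map (σ := Fin (c + m)) (algebraMap K L)
  have hreg' : RegList ⊥ (List.ofFn fun i => φ (f i)) := by
    have := regList_extI (L := L) _ _ hreg
    rwa [extI, Ideal.map_bot, List.map_ofFn] at this
  obtain ⟨s, hup, hpow, hcard⟩ := exists_stack (K := L) (hA L) (m := m) (n := c + m) (by omega)
    (f := fun i => φ (f i)) (fun i => (hf i).map _) hreg' (homogI_extI hI)
    (fun i => Ideal.mem_map_of_mem _ (hfI i))
  let ε : Fin m ⊕ Fin c ≃ Fin (c + m) := (Equiv.sumComm _ _).trans finSumFinEquiv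
  let E := Finsupp.domCongr (M := ℕ) ε
  have hE : ∀ e : Fin (c + m) →₀ ℕ, (E.symm e).degree = e.degree := fun e => by
    simp only [Finsupp.degree_eq_sum]
    exact Fintype.sum_equiv ε _ _ fun x => by simp [E]
  refine ⟨{e | E.symm e ∈ s}, fun i => ?_, fun d => ?_⟩
  · show E.symm (Finsupp.single (Fin.castLE hcn i) 2) ∈ s
    rw [show E.symm (Finsupp.single (Fin.castLE hcn i) 2) = Finsupp.single (Sum.inr i) 2 by
      apply E.injective
      rw [AddEquiv.apply_symm_apply]
      ext x
      simp [E, ε, Finsupp.single_apply, Fin.ext_iff]]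
    exact hpow i
  · rw [finrank_monomialIdeal]
    · rw [← finrank_degPart_extI (L := L) I d, ← hcard d]
      exact Nat.card_congr
        { toFun := fun e => ⟨E.symm e.1, (hE e.1).trans e.2.1, e.2.2⟩
          invFun := fun e => ⟨E e.1, by
            rw [← hE, AddEquiv.symm_apply_apply]; exact e.2.1, by
            show E.symm (E e.1) ∈ s
            rw [AddEquiv.symm_apply_apply]; exact e.2.2⟩
          left_inv := fun e => Subtype.ext (E.apply_symm_apply _)
          right_inv := fun e => Subtype.ext (E.symm_apply_apply _) }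
    · intro e he e' hle
      refine hup _ he _ fun x => ?_
      simpa [E] using hle (ε x)

end Vale.Agent.P200.Quad
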