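import Vale.Agent.P200.Quad.Model

/-!
Every regular sequence of quadrics filling all variables has squarefree models.
-/

namespace Vale.Agent.P200.Quad

open MvPolynomial Module
open scoped TensorProduct

universe u

variable {K : Type u} [Field K] {n : ℕ}

lemma finrank_span_one_tmul {D : Type u} [DivisionRing D] [Algebra K D] {Q : Type*}
    [AddCommGroup Q] [Module K Q] (W : Submodule K Q) [FiniteDimensional K W] :
    finrank D (Submodule.span D ((fun q : Q => (1 : D) ⊗ₜ[K] q) '' (W : Set Q))) = finrank K W := by
  classical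
  let b := Module.finBasis K W
  let v : Fin (finrank K W) → D ⊗[K] Q := fun k => (1 : D) ⊗ₜ[K] (b k : Q)
  have hli : LinearIndependent D v := by
    rw [Fintype.linearIndependent_iff]
    intro e he k
    obtain ⟨h, hh⟩ := LinearMap.exists_extend (b.coord k)
    have h2 := congrArg ((TensorProduct.rid K D).toLinearMap ∘ₗ h.lTensor D) he
    simp only [v, TensorProduct.smul_tmul', smul_eq_mul, mul_one, map_sum, LinearMap.comp_apply,
      LinearMap.lTensor_tmul, LinearEquiv.coe_coe, TensorProduct.rid_tmul, map_zero] at h2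
    have hb : ∀ j, h (b j : Q) = if j = k then 1 else 0 := fun j => by
      have := LinearMap.congr_fun hh (b j)
      simp only [LinearMap.comp_apply, Submodule.subtype_apply] at this
      rw [this, Basis.coord_apply, Basis.repr_self, Finsupp.single_apply]
    simpa [hb, ite_smul] using h2
  have hspan : Submodule.span D ((fun q : Q => (1 : D) ⊗ₜ[K] q) '' (W : Set Q)) =
      Submodule.span D (Set.range v) := by
    refine le_antisymm (Submodule.span_le.2 ?_) (Submodule.span_le.2 ?_)
    · rintro _ ⟨q, hq, rfl⟩
      have := congrArg Subtype.val (b.sum_repr ⟨q, hq⟩)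
      simp only [Submodule.coe_sum, Submodule.coe_smul] at this
      rw [SetLike.mem_coe, ← this]
      simp only [TensorProduct.tmul_sum]
      refine sum_mem fun k _ => ?_
      rw [TensorProduct.tmul_smul]
      exact Submodule.smul_of_tower_mem _ _ (Submodule.subset_span ⟨k, rfl⟩)
    · rintro _ ⟨k, rfl⟩
      exact Submodule.subset_span ⟨_, (b k).2, rfl⟩
  rw [hspan, finrank_span_eq_card hli, Fintype.card_fin]

variable (f : Fin n → MvPolynomial (Fin n) K)

/-- The image of the degree part of an ideal in the quotient. -/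
noncomputable def jbar (J : Ideal (MvPolynomial (Fin n) K)) (d : ℕ) : Submodule K (Quo f) :=
  (Vale.Agent.P200.degPart d J).map (mkA f)

lemma mkA_surjective : Function.Surjective (mkA f) := Ideal.Quotient.mkₐ_surjective K _

lemma exists_compA (hI : HomogI (Ideal.span (Set.range f))) (d : ℕ) :
    ∃ π : Quo f →ₗ[K] Quo f, ∀ u, π (mkA f u) = mkA f (homogeneousComponent d u) := by
  obtain ⟨s, hs⟩ := LinearMap.exists_rightInverse_of_surjective (mkA f)
    (LinearMap.range_eq_top.2 (mkA_surjective f))
  refine ⟨(mkA f).comp ((homogeneousComponent d).comp s), fun u => ?_⟩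
  have h : mkA f (s (mkA f u) - u) = 0 := by
    rw [map_sub, ← LinearMap.comp_apply, hs, LinearMap.id_apply, sub_self]
  have h2 : mkA f (homogeneousComponent d (s (mkA f u) - u)) = 0 :=
    Ideal.Quotient.eq_zero_iff_mem.2 (hI _ (Ideal.Quotient.eq_zero_iff_mem.1 h) d)
  rw [map_sub, map_sub, sub_eq_zero] at h2
  exact h2

/-- The exponent of a squarefree monomial. -/
noncomputable def ind (S : Finset (Fin n)) : Fin n →₀ ℕ :=
  Finsupp.equivFunOnFinite.symm fun i => if i ∈ S then 1 else 0

lemma ind_apply (S : Finset (Fin n)) (i : Fin n) : ind S i = if i ∈ S then 1 else 0 := rfl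

lemma ind_injective : Function.Injective (ind (n := n)) := fun S S' h => Finset.ext fun i => by
  have := congrArg (fun e : Fin n →₀ ℕ => e i) h
  simp only [ind_apply] at this
  split_ifs at this with h1 h2 h2 <;> simp [h1, h2]

lemma degree_ind (S : Finset (Fin n)) : (ind S).degree = S.card := by
  simp [Finsupp.degree_eq_sum, ind_apply, Finset.sum_ite_mem]

lemma ind_insert {S : Finset (Fin n)} {i : Fin n} (h : i ∉ S) :
    ind S + Finsupp.single i 1 = ind (insert i S) := by
  ext j
  simp only [Finsupp.add_apply, ind_apply, Finsupp.single_apply, Finset.mem_insert]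
  by_cases hj : i = j
  · subst hj; simp [h]
  · simp [hj, Ne.symm hj]

/-- Exponents of degree `d` that are not squarefree. -/
noncomputable def nsf (n d : ℕ) : Finset (Fin n →₀ ℕ) :=
  ((Finset.univ : Finset (Fin n)).finsuppAntidiag d).filter fun e => ∃ i, 2 ≤ e i

lemma mem_nsf {d : ℕ} {e : Fin n →₀ ℕ} : e ∈ nsf n d ↔ e.degree = d ∧ ∃ i, 2 ≤ e i := by
  simp [nsf, Finsupp.degree_eq_sum]

lemma card_nsf (d : ℕ) :
    (nsf n d).card + n.choose d = finrank K (homogeneousSubmodule (Fin n) K d) := by
  rw [finrank_homog]
  have hA : Nat.card {e : Fin n →₀ ℕ // e.degree = d} =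
      ((Finset.univ : Finset (Fin n)).finsuppAntidiag d).card := by
    rw [← Nat.card_eq_finsetCard]
    exact Nat.card_congr (Equiv.subtypeEquivRight fun e => by simp [Finsupp.degree_eq_sum])
  have hsf : ((Finset.univ : Finset (Fin n)).finsuppAntidiag d).filter (fun e => ¬ ∃ i, 2 ≤ e i) =
      ((Finset.univ : Finset (Fin n)).powersetCard d).image ind := by
    ext e
    simp only [Finset.mem_filter, Finset.mem_image, Finset.mem_powersetCard, Finset.subset_univ,
      true_and, Finset.mem_finsuppAntidiag, and_true, not_exists, not_le]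
    constructor
    · rintro ⟨h1, h2⟩
      have he : ind (Finset.univ.filter fun i => e i = 1) = e := by
        ext i
        have := h2 i
        simp only [ind_apply, Finset.mem_filter, Finset.mem_univ, true_and]
        split_ifs <;> omega
      refine ⟨_, ?_, he⟩
      rw [← degree_ind, he, Finsupp.degree_eq_sum]
      exact h1
    · rintro ⟨S, hS, rfl⟩
      refine ⟨by rw [← hS, ← degree_ind, Finsupp.degree_eq_sum], fun i => ?_⟩
      rw [ind_apply]; split_ifs <;> omega
  rw [hA, ← Finset.card_filter_add_card_filter_not (s := Finset.univ.finsuppAntidiag d)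
    (fun e : Fin n →₀ ℕ => ∃ i, 2 ≤ e i), hsf,
    Finset.card_image_of_injective _ ind_injective, Finset.card_powersetCard, Finset.card_univ,
    Fintype.card_fin]
  rfl

lemma artinian_zero (f : Fin 0 → MvPolynomial (Fin 0) K) :
    ∃ T : Ideal (MvPolynomial (Fin 0) K) → ℕ → Finset (Fin 0 →₀ ℕ),
      ∀ J, (∀ i, f i ∈ J) →
        (∀ d, (∀ e ∈ T J d, e.degree = d) ∧
          (T J d).card = finrank K (Vale.Agent.P200.degPart d J) ∧
          (∀ e : Fin 0 →₀ ℕ, e.degree = d → (∃ i, 2 ≤ e i) → e ∈ T J d) ∧
          ∀ e ∈ T J d, ∀ i, e + Finsupp.single i 1 ∈ T J (d + 1)) ∧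
        ∀ J', J ≤ J' → ∀ d, T J d ⊆ T J' d := by
  classical
  refine ⟨fun J d => if d = 0 ∧ (1 : MvPolynomial (Fin 0) K) ∈ J then {0} else ∅, fun J _ =>
    ⟨fun d => ⟨fun e he => ?_, ?_, fun e _ h => h.choose.elim0, fun e _ i => i.elim0⟩,
      fun J' hJ d => ?_⟩⟩ <;> simp only at *
  · split_ifs at he with h
    · rw [Finset.mem_singleton.1 he, h.1, map_zero]
    · simp at he
  · rcases Nat.eq_zero_or_pos d with rfl | hd
    · by_cases h1 : (1 : MvPolynomial (Fin 0) K) ∈ J
      · rw [if_pos ⟨rfl, h1⟩, Finset.card_singleton]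
        have : Vale.Agent.P200.degPart 0 J = homogeneousSubmodule (Fin 0) K 0 :=
          le_antisymm inf_le_left fun u hu => ⟨hu, by simp [(Ideal.eq_top_iff_one J).2 h1]⟩
        rw [this, finrank_homog]
        symm
        rw [Nat.card_eq_one_iff_unique]
        exact ⟨⟨fun x y => Subtype.ext (Subsingleton.elim _ _)⟩, ⟨⟨0, by simp⟩⟩⟩
      · rw [if_neg (fun h => h1 h.2), Finset.card_empty]
        have : Vale.Agent.P200.degPart 0 J = ⊥ := by
          refine (Submodule.eq_bot_iff _).2 fun u hu => ?_
          by_contra h0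
          obtain ⟨hu1, hu2⟩ := Vale.Agent.P200.mem_degPart.1 hu
          have hC := totalDegree_eq_zero_iff_eq_C.1 (Nat.le_zero.1 hu1.totalDegree_le)
          have hc : coeff 0 u ≠ 0 := fun h => h0 (by rw [hC, h, C_0])
          refine h1 ?_
          have := Ideal.mul_mem_left J (C (coeff 0 u)⁻¹) hu2
          rwa [hC, coeff_zero_C, ← C_mul, inv_mul_cancel₀ hc, C_1] at this
        rw [this, finrank_bot]
    · rw [if_neg (fun h => by omega), Finset.card_empty]
      have : Vale.Agent.P200.degPart d J = ⊥ := by
        refine (Submodule.eq_bot_iff _).2 fun u hu => ?_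
        ext e
        rw [Subsingleton.elim e 0, coeff_zero]
        exact (Vale.Agent.P200.mem_degPart.1 hu).1.coeff_eq_zero (by simp; omega)
      rw [this, finrank_bot]
  · intro e he
    by_cases h : d = 0 ∧ (1 : MvPolynomial (Fin 0) K) ∈ J
    · rw [if_pos h] at he
      rw [if_pos ⟨h.1, hJ h.2⟩]
      exact he
    · rw [if_neg h] at he
      simp at he

set_option maxHeartbeats 400000 in
/-- Squarefree models exist over every field. -/
theorem artinian (K : Type u) [Field K] : Artinian K := by
  intro n f hf hreg
  classical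
  rcases Nat.eq_zero_or_pos n with rfl | hn
  · exact artinian_zero f
  obtain ⟨D, _, _, g, z, a, ha, hanti, hsq, hpol, E, hE⟩ := exists_factorisation hn hf hreg
  set I := Ideal.span (Set.range f)
  have hlist : List.ofFn f = (List.finRange n).map f := List.ofFn_eq_map
  have hI : HomogI I := by
    have := homogI_ofList' (L := List.ofFn f) fun q hq => by
      obtain ⟨i, rfl⟩ := List.mem_ofFn.1 hq
      exact ⟨2, two_pos, hf i⟩
    convert this using 1
    exact congrArg Ideal.span (Set.ext fun x => by simp [List.mem_ofFn])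
  have hquo : ∀ d, finrank K (quoDeg f d) = n.choose d := fun d => by
    have := finrank_quoDeg f rfl hf (List.finRange n) (List.nodup_finRange n)
      (List.mem_finRange) (hlist ▸ hreg) d
    simpa using this
  choose π hπ using exists_compA f hI
  let P : ℕ → D ⊗[K] Quo f →ₗ[D] D ⊗[K] Quo f := fun d =>
    TensorProduct.AlgebraTensorModule.map LinearMap.id (π d)
  have hπdeg : ∀ {d e : ℕ} {q : Quo f}, q ∈ quoDeg f e → π d q = if e = d then q else 0 := by
    rintro d e _ ⟨u, hu, rfl⟩
    rw [hπ, homogeneousComponent_of_mem hu]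
    · by_cases h : e = d
      · rw [if_pos h.symm, if_pos h]
      · rw [if_neg (Ne.symm h), if_neg h, map_zero]
  have hP : ∀ (d e : ℕ) (v : D ⊗[K] Quo f), v ∈ piece f e → P d v = if e = d then v else 0 := by
    intro d e v hv
    induction hv using Submodule.span_induction with
    | mem x hx =>
      obtain ⟨q, hq, rfl⟩ := hx
      simp only [P, TensorProduct.AlgebraTensorModule.map_tmul, LinearMap.id_apply, hπdeg hq]
      split_ifs <;> simp
    | zero => simp
    | add x y _ _ hx hy => rw [map_add, hx, hy]; split_ifs <;> simp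
    | smul r x _ hx => rw [map_smul, hx]; split_ifs <;> simp
  have hws := wspan_eq_piece f g hanti z a ha hsq hpol E hE
  have hfin : ∀ d, FiniteDimensional K (quoDeg f d) := finite_quoDeg f
  have hli : LinearIndependent D (wordSet f g) := by
    rw [Fintype.linearIndependent_iff]
    intro e he S
    set d := S.card
    have hd : LinearIndependent D (fun T : {T : Finset (Fin n) // T.card = d} => wordSet f g T.1) := by
      rw [linearIndependent_iff_card_eq_finrank_span, Set.finrank]
      have : Submodule.span D (Set.range fun T : {T : Finset (Fin n) // T.card = d} =>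
          wordSet f g T.1) = piece f d := by
        rw [← hws, wspan]
        congr 1
        ext x
        simp
      have hc : Fintype.card {T : Finset (Fin n) // T.card = d} = n.choose d := by
        rw [Fintype.card_subtype, ← Finset.powerset_univ, ← Finset.powersetCard_eq_filter,
          Finset.card_powersetCard, Finset.card_univ, Fintype.card_fin]
      rw [this, piece, finrank_span_one_tmul, hquo, hc]
    have h2 := congrArg (P d) he
    simp only [map_sum, map_smul, map_zero, hP d _ _ (wordSet_mem_piece f g _), smul_ite,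
      smul_zero] at h2
    rw [← Finset.sum_filter, Finset.sum_subtype _ (p := fun T : Finset (Fin n) => T.card = d)
      (by simp) fun T => e T • wordSet f g T] at h2
    exact Fintype.linearIndependent_iff.1 hd (fun T => e T.1) h2 ⟨S, rfl⟩
  have hsp : ⊤ ≤ Submodule.span D (Set.range (wordSet f g)) := by
    intro v _
    induction v using TensorProduct.induction_on with
    | zero => exact zero_mem _
    | add x y hx hy => exact add_mem (hx trivial) (hy trivial)
    | tmul x q =>
      obtain ⟨u, rfl⟩ := mkA_surjective f q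
      rw [← sum_homogeneousComponent u, map_sum, TensorProduct.tmul_sum]
      refine sum_mem fun d _ => ?_
      have := tmul_mem_piece f x (q := mkA f (homogeneousComponent d u))
        ⟨_, homogeneousComponent_mem _ _, rfl⟩
      rw [← hws] at this
      exact Submodule.span_mono (Set.image_subset_range _ _) this
  let b : Basis (Finset (Fin n)) D (D ⊗[K] Quo f) := Basis.mk hli hsp
  have hb : ∀ S, b S = wordSet f g S := fun S => Basis.mk_apply hli hsp S
  obtain ⟨T₀, hT₀, hmono, hclosed⟩ := exists_leadSets b (act f g)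
    (fun k S h => by rw [hb]; exact act_wordSet_mem f g hanti z a ha hsq hpol h)
    (fun k S h => by rw [hb, hb]; exact act_wordSet_not_mem f g hanti h)
  let U : Ideal (MvPolynomial (Fin n) K) → Submodule D (D ⊗[K] Quo f) := fun J =>
    Submodule.span D (⋃ d, (fun q : Quo f => (1 : D) ⊗ₜ[K] q) '' (jbar f J d : Set (Quo f)))
  refine ⟨fun J d => (T₀ (U J) d).image ind ∪ nsf n d, fun J hJ => ⟨fun d => ⟨?_, ?_, ?_, ?_⟩, ?_⟩⟩
    <;> simp only
  · intro e he
    rcases Finset.mem_union.1 he with he | he
    · obtain ⟨S, hS, rfl⟩ := Finset.mem_image.1 he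
      rw [degree_ind, (hT₀ (U J) d).1 S hS]
    · exact (mem_nsf.1 he).1
  · have hdis : Disjoint ((T₀ (U J) d).image ind) (nsf n d) := by
      rw [Finset.disjoint_left]
      intro e he he'
      obtain ⟨S, -, rfl⟩ := Finset.mem_image.1 he
      obtain ⟨-, i, hi⟩ := mem_nsf.1 he'
      rw [ind_apply] at hi
      split_ifs at hi <;> omega
    have hjb : jbar f J d ≤ quoDeg f d := Submodule.map_mono inf_le_left
    have := Submodule.finiteDimensional_of_le hjb
    have hUd : U J ⊓ Submodule.span D (b '' {S | S.card = d}) =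
        Submodule.span D ((fun q : Quo f => (1 : D) ⊗ₜ[K] q) '' (jbar f J d : Set (Quo f))) := by
      rw [show Submodule.span D (b '' {S | S.card = d}) = piece f d by
        rw [← hws, wspan]; congr 1; ext x; simp [hb]]
      refine le_antisymm ?_ (le_inf ?_ ?_)
      · rintro v ⟨hv1, hv2⟩
        have h3 : P d v = v := by rw [hP d d v hv2, if_pos rfl]
        rw [← h3]
        clear h3 hv2
        induction hv1 using Submodule.span_induction with
        | mem x hx =>
          obtain ⟨e, q, hq, rfl⟩ := Set.mem_iUnion.1 hx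
          rw [hP d e _ (tmul_mem_piece f 1 (Submodule.map_mono inf_le_left hq))]
          split_ifs with h
          · exact Submodule.subset_span ⟨q, h ▸ hq, rfl⟩
          · exact zero_mem _
        | zero => simp
        | add x y _ _ hx hy => rw [map_add]; exact add_mem hx hy
        | smul r x _ hx => rw [map_smul]; exact Submodule.smul_mem _ _ hx
      · exact Submodule.span_mono (Set.subset_iUnion
          (fun d => (fun q : Quo f => (1 : D) ⊗ₜ[K] q) '' (jbar f J d : Set (Quo f))) d)
      · exact Submodule.span_mono (Set.image_mono fun q hq => hjb hq)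
    rw [Finset.card_union_of_disjoint hdis, Finset.card_image_of_injective _ ind_injective,
      (hT₀ (U J) d).2, hUd, finrank_span_one_tmul]
    have h1 := finrank_map_add_ker (mkA f) (Vale.Agent.P200.degPart d J)
    have hIJ : I ≤ J := Ideal.span_le.2 fun x ⟨i, hi⟩ => hi ▸ hJ i
    have h2 : Vale.Agent.P200.degPart d J ⊓ LinearMap.ker (mkA f) =
        Vale.Agent.P200.degPart d I := by
      ext u
      simp only [Submodule.mem_inf, Vale.Agent.P200.mem_degPart, LinearMap.mem_ker]
      constructor
      · rintro ⟨⟨h1, -⟩, h2⟩; exact ⟨h1, Ideal.Quotient.eq_zero_iff_mem.1 h2⟩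
      · rintro ⟨h1, h2⟩; exact ⟨⟨h1, hIJ h2⟩, Ideal.Quotient.eq_zero_iff_mem.2 h2⟩
    have h3 := finrank_degPart_quadrics f rfl hf (List.finRange n) (List.nodup_finRange n)
      List.mem_finRange (hlist ▸ hreg) d
    have h4 := card_nsf (K := K) (n := n) d
    rw [h2] at h1
    rw [Fintype.card_fin] at h3
    simp only [jbar]
    have key : ∀ A B C N H T : ℕ, A + B = C → B + N = H → T + N = H → A + T = C := by omega
    exact key _ _ _ _ _ _ h1 h3 h4
  · intro e hd hi
    exact Finset.mem_union_right _ (mem_nsf.2 ⟨hd, hi⟩)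
  · intro e he i
    rcases Finset.mem_union.1 he with he | he
    · obtain ⟨S, hS, rfl⟩ := Finset.mem_image.1 he
      by_cases hi : i ∈ S
      · refine Finset.mem_union_right _ (mem_nsf.2 ⟨?_, i, ?_⟩)
        · rw [map_add, degree_ind, Finsupp.degree_single, (hT₀ (U J) d).1 S hS]
        · simp [ind_apply, hi]
      · refine Finset.mem_union_left _ (Finset.mem_image.2 ⟨insert i S, ?_, (ind_insert hi).symm⟩)
        refine hclosed (U J) (fun k => ?_) d S hS i hi
        rw [Submodule.map_span, Submodule.span_le]
        rintro _ ⟨v, hv, rfl⟩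
        obtain ⟨e, q, hq, rfl⟩ := Set.mem_iUnion.1 hv
        rw [SetLike.mem_coe, act_tmul]
        refine sum_mem fun j _ => ?_
        rw [one_mul, show g k j ⊗ₜ[K] (mkA f (X j) * q) =
          g k j • ((1 : D) ⊗ₜ[K] (mkA f (X j) * q)) by simp [TensorProduct.smul_tmul']]
        refine Submodule.smul_mem _ _ (Submodule.subset_span (Set.mem_iUnion.2 ⟨e + 1, _, ?_, rfl⟩))
        obtain ⟨u, hu, rfl⟩ := hq
        refine ⟨X j * u, ⟨?_, Ideal.mul_mem_left J _ hu.2⟩,
          map_mul (Ideal.Quotient.mkₐ K (Ideal.span (Set.range f))) _ _⟩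
        show (X j * u).IsHomogeneous (e + 1)
        rw [add_comm]
        exact (isHomogeneous_X K j).mul hu.1
    · obtain ⟨hd, j, hj⟩ := mem_nsf.1 he
      exact Finset.mem_union_right _ (mem_nsf.2 ⟨by rw [map_add, Finsupp.degree_single, hd],
        j, le_trans hj (by simp)⟩)
  · intro J' hJJ' d
    refine Finset.union_subset_union (Finset.image_subset_image (hmono _ _ ?_ d)) subset_rfl
    refine Submodule.span_mono (Set.iUnion_mono fun e => Set.image_mono ?_)
    exact Submodule.map_mono (inf_le_inf_left _ fun u hu => hJJ' hu)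

end Vale.Agent.P200.Quad
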