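import Vale.Agent.P200.Quad.Artinian
import Vale.Agent.P200.Quad.Reduce

/-!
From the regular sequence condition of the problem to lists.
-/

namespace Vale.Agent.P200.Quad

open MvPolynomial

lemma regList_ofFn {σ K : Type*} [Field K] : ∀ {c : ℕ} {f : Fin c → MvPolynomial σ K},
    (∀ i, ∀ u, f i * u ∈ Ideal.span (f '' Set.Iio i) → u ∈ Ideal.span (f '' Set.Iio i)) →
    RegList ⊥ (List.ofFn f)
  | 0, f, _ => by simp [RegList]
  | c + 1, f, h => by
    have himg : ∀ i : Fin c, f '' Set.Iio i.castSucc = (fun j => f j.castSucc) '' Set.Iio i := by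
      intro i
      ext x
      constructor
      · rintro ⟨j, hj, rfl⟩
        have hlt : (j : ℕ) < c := lt_of_lt_of_le (show (j : ℕ) < i from hj) i.2.le
        exact ⟨⟨j, hlt⟩, show (j : ℕ) < i from hj, rfl⟩
      · rintro ⟨j, hj, rfl⟩
        exact ⟨j.castSucc, show (j : ℕ) < i from hj, rfl⟩
    have hlast : Ideal.ofList (List.ofFn fun j : Fin c => f j.castSucc) =
        Ideal.span (f '' Set.Iio (Fin.last c)) := by
      refine congrArg Ideal.span ?_
      ext x
      simp only [Set.mem_ofPred_eq, List.mem_ofFn, Set.mem_image, Set.mem_Iio]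
      constructor
      · rintro ⟨j, rfl⟩; exact ⟨_, Fin.castSucc_lt_last j, rfl⟩
      · rintro ⟨j, hj, rfl⟩
        exact ⟨⟨j, hj⟩, rfl⟩
    rw [List.ofFn_succ', List.concat_eq_append, regList_concat, sup_bot_eq, hlast]
    exact ⟨regList_ofFn fun i u hu => himg i ▸ h i.castSucc u (himg i ▸ hu), h (Fin.last c)⟩

end Vale.Agent.P200.Quad
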