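import Vale.Agent.P200.Quad.Division

/-!
The generators of the copies form an invertible matrix over the division ring.
-/

namespace Vale.Agent.P200.Quad

open MvPolynomial Module
open scoped TensorProduct

universe u

variable {K : Type u} [Field K]

section

variable {σ τ : Type*} [Fintype σ] [LinearOrder σ] [Fintype τ] (c : τ → σ → σ → K)

/-- Scalars times basis elements on subsets of `S`. -/
noncomputable def subSpan (S : Finset σ) : Submodule (Par K τ) (Cl c) :=
  Submodule.span (Par K τ) (bR c '' {T | T ⊆ S})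

lemma bR_mem_subSpan {S T : Finset σ} (h : T ⊆ S) : bR c T ∈ subSpan c S :=
  Submodule.subset_span ⟨T, h, rfl⟩

lemma subSpan_mono {S T : Finset σ} (h : T ⊆ S) : subSpan c T ≤ subSpan c S :=
  Submodule.span_mono (Set.image_mono fun _ hU => subset_trans hU h)

lemma eps_subSpan (i : σ) {S : Finset σ} {r : Cl c} (hr : r ∈ subSpan c S) :
    eps c i r ∈ subSpan c (insert i S) := by
  induction hr using Submodule.span_induction with
  | mem x hx =>
    obtain ⟨T, hT, rfl⟩ := hx
    by_cases h : i ∈ T
    · simp [eps_mem c i T h]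
    · obtain ⟨u, hu⟩ := eps_not_mem c i T h
      rw [hu, Units.smul_def]
      exact Submodule.smul_of_tower_mem _ _ (bR_mem_subSpan c (Finset.insert_subset_insert _ hT))
  | zero => simp
  | add x y _ _ hx hy => rw [map_add]; exact add_mem hx hy
  | smul a x _ hx => rw [map_smul]; exact Submodule.smul_mem _ _ hx

lemma kap_subSpan (i : σ) (S : Finset σ) : kap c i (bR c S) ∈ subSpan c S := by
  induction S using Finset.induction_on with
  | empty => simp [bR_empty, kap_one]
  | insert a S ha ih =>
    obtain ⟨u, hu⟩ := eps_not_mem c a S ha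
    have hS : bR c (insert a S) = u⁻¹ • eps c a (bR c S) := by rw [hu, inv_smul_smul]
    rw [hS, Units.smul_def, map_zsmul, kap_eps]
    exact Submodule.smul_of_tower_mem _ _ (sub_mem
      (Submodule.smul_mem _ _ (bR_mem_subSpan c (Finset.subset_insert a S))) (eps_subSpan c a ih))

lemma kap_eq_zero (i : σ) (S : Finset σ) (h : ∀ a ∈ S, bco c i a = 0) : kap c i (bR c S) = 0 := by
  induction S using Finset.induction_on with
  | empty => simp [bR_empty, kap_one]
  | insert a S ha ih =>
    obtain ⟨u, hu⟩ := eps_not_mem c a S ha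
    have hS : bR c (insert a S) = u⁻¹ • eps c a (bR c S) := by rw [hu, inv_smul_smul]
    rw [hS, Units.smul_def, map_zsmul, kap_eps, h a (Finset.mem_insert_self a S),
      ih fun b hb => h b (Finset.mem_insert_of_mem hb)]
    simp

end

variable {n : ℕ}

lemma bco_copy_ne (a : Fin n → Fin n → Fin n → K) {k l : Fin n} (h : k ≠ l) (i j : Fin n) :
    bco (copyCoef a) (idx k i) (idx l j) = 0 := by
  refine Finset.sum_eq_zero fun p _ => ?_
  simp only [copyCoef, idx, Equiv.symm_apply_apply]
  rw [if_neg (fun h' => h (h'.1.trans h'.2.symm)), map_zero, zero_mul]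

lemma bco_copy_eq (a : Fin n → Fin n → Fin n → K) (k i j : Fin n) :
    bco (copyCoef a) (idx k i) (idx k j) = ∑ l, C (a l i j) * X (idx k l) := by
  rw [bco, ← Equiv.sum_comp finProdFinEquiv, Fintype.sum_prod_type, Finset.sum_eq_single k]
  · simp [copyCoef, idx]
  · intro b _ hb; simp [copyCoef, idx, Ne.symm hb]
  · simp

/-- The copy of a variable index. -/
abbrev blk (p : Fin (n * n)) : Fin n := (finProdFinEquiv.symm p).1

lemma blk_idx (k i : Fin n) : blk (idx k i) = k := by simp [blk, idx]

variable (a : Fin n → Fin n → Fin n → K)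

/-- The Clifford generators after localisation. -/
noncomputable abbrev gD (k i : Fin n) : DCl (copyCoef a) :=
  toD (copyCoef a) (gen (copyCoef a) (idx k i))

/-- The span of the monomials in the copies before `k`. -/
noncomputable def below (k : Fin n) : Submodule (Fr K (Fin (n * n))) (DCl (copyCoef a)) :=
  Submodule.span _ (bD (copyCoef a) '' {S | ∀ p ∈ S, blk p < k})

lemma gD_mul_bD {k : Fin n} (i : Fin n) {S : Finset (Fin (n * n))} (hS : ∀ p ∈ S, blk p < k) :
    ∃ ε : Fr K (Fin (n * n)), ε ≠ 0 ∧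
      gD a k i * bD (copyCoef a) S = ε • bD (copyCoef a) (insert (idx k i) S) := by
  have hni : idx k i ∉ S := fun h => lt_irrefl k (by simpa [blk_idx] using hS _ h)
  obtain ⟨v, hv⟩ := eps_not_mem (copyCoef a) (idx k i) S hni
  refine ⟨((v : ℤ) : Fr K (Fin (n * n))), ?_, ?_⟩
  · rcases Int.units_eq_one_or v with rfl | rfl <;> simp
  have hk : kap (copyCoef a) (idx k i) (bR (copyCoef a) S) = 0 :=
    kap_eq_zero _ _ S fun p hp => by
      obtain ⟨⟨k', j⟩, rfl⟩ := finProdFinEquiv.surjective p
      refine bco_copy_ne a (fun h => ?_) i j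
      have := hS _ hp
      simp [blk, h] at this
  rw [bD_apply, bD_apply, ← map_mul, gen_mul, hk, add_zero, hv, Units.smul_def, map_zsmul]
  exact (Int.cast_smul_eq_zsmul (Fr K (Fin (n * n))) _ _).symm

lemma repr_gD_mul_bD {k i i₀ : Fin n} {S S₀ : Finset (Fin (n * n))} (hS : ∀ p ∈ S, blk p < k)
    (hS₀ : ∀ p ∈ S₀, blk p < k) (hne : i ≠ i₀ ∨ S ≠ S₀) :
    (bD (copyCoef a)).repr (gD a k i * bD (copyCoef a) S) (insert (idx k i₀) S₀) = 0 := by
  obtain ⟨v, -, hv⟩ := gD_mul_bD a i hS
  rw [hv, map_smul, Basis.repr_self, Finsupp.smul_apply, Finsupp.single_eq_of_ne, smul_zero]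
  intro he
  have hmem : idx k i₀ ∈ insert (idx k i) S := he ▸ Finset.mem_insert_self _ _
  rcases Finset.mem_insert.1 hmem with h' | h'
  · have hii : i₀ = i := congrArg Prod.snd (finProdFinEquiv.injective h')
    subst hii
    have h1 : idx k i₀ ∉ S := fun h => lt_irrefl k (by simpa [blk_idx] using hS _ h)
    have h2 : idx k i₀ ∉ S₀ := fun h => lt_irrefl k (by simpa [blk_idx] using hS₀ _ h)
    rcases hne with h | h
    · exact h rfl
    · exact h (by rw [← Finset.erase_insert h1, ← he, Finset.erase_insert h2])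
  · exact lt_irrefl k (by simpa [blk_idx] using hS _ h')

lemma eq_zero_of_sum_gD_mul {k : Fin n} {w : Fin n → DCl (copyCoef a)}
    (hw : ∀ i, w i ∈ below a k) (hsum : ∑ i, gD a k i * w i = 0) : w = 0 := by
  funext i₀
  apply (bD (copyCoef a)).repr.injective
  refine Finsupp.ext fun S₀ => ?_
  rw [Pi.zero_apply, map_zero, Finsupp.zero_apply]
  by_cases hS₀ : ∀ p ∈ S₀, blk p < k
  swap
  · by_contra h
    exact hS₀ ((bD (copyCoef a)).mem_span_image.1 (hw i₀) (Finsupp.mem_support_iff.2 h))
  obtain ⟨v₀, hv₀', hv₀⟩ := gD_mul_bD a i₀ hS₀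
  have hexp : ∀ i, (bD (copyCoef a)).repr (gD a k i * w i) (insert (idx k i₀) S₀) =
      ∑ S, (bD (copyCoef a)).repr (w i) S *
        (bD (copyCoef a)).repr (gD a k i * bD (copyCoef a) S) (insert (idx k i₀) S₀) := fun i => by
    conv_lhs => rw [← (bD (copyCoef a)).sum_repr (w i)]
    simp only [Finset.mul_sum, mul_smul_comm, map_sum, map_smul, Finsupp.finsetSum_apply,
      Finsupp.smul_apply, smul_eq_mul]
  have h := congrArg (fun y => (bD (copyCoef a)).repr y (insert (idx k i₀) S₀)) hsum
  simp only [map_sum, Finsupp.finsetSum_apply, map_zero, Finsupp.zero_apply, hexp] at h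
  have hoff : ∀ i S, (i ≠ i₀ ∨ S ≠ S₀) → (bD (copyCoef a)).repr (w i) S *
      (bD (copyCoef a)).repr (gD a k i * bD (copyCoef a) S) (insert (idx k i₀) S₀) = 0 := by
    intro i S hne
    by_cases hS : ∀ p ∈ S, blk p < k
    · rw [repr_gD_mul_bD a hS hS₀ hne, mul_zero]
    · rw [show (bD (copyCoef a)).repr (w i) S = 0 from by_contra fun h =>
        hS ((bD (copyCoef a)).mem_span_image.1 (hw i) (Finsupp.mem_support_iff.2 h)), zero_mul]
  rw [Finset.sum_eq_single i₀ (fun i _ hne => Finset.sum_eq_zero fun S _ => hoff i S (Or.inl hne))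
      (by simp), Finset.sum_eq_single S₀ (fun S _ hne => hoff i₀ S (Or.inr hne)) (by simp),
    hv₀, map_smul, Basis.repr_self, Finsupp.smul_apply, Finsupp.single_eq_same, smul_eq_mul,
    mul_one] at h
  exact (mul_eq_zero.1 h).resolve_right hv₀'

lemma gD_mul_mem_below {k l : Fin n} (hl : l < k) (i : Fin n) {w : DCl (copyCoef a)}
    (hw : w ∈ below a k) : gD a l i * w ∈ below a k := by
  induction hw using Submodule.span_induction with
  | mem y hy =>
    obtain ⟨S, hS, rfl⟩ := hy
    rw [bD_apply, ← map_mul, gen_mul]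
    have hsub : eps (copyCoef a) (idx l i) (bR (copyCoef a) S) +
        kap (copyCoef a) (idx l i) (bR (copyCoef a) S) ∈
        subSpan (copyCoef a) (insert (idx l i) S) :=
      add_mem (eps_subSpan _ _ (bR_mem_subSpan _ subset_rfl))
        (subSpan_mono _ (Finset.subset_insert _ _) (kap_subSpan _ _ S))
    generalize eps (copyCoef a) (idx l i) (bR (copyCoef a) S) +
        kap (copyCoef a) (idx l i) (bR (copyCoef a) S) = r at hsub
    induction hsub using Submodule.span_induction with
    | mem y hy =>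
      obtain ⟨T, hT, rfl⟩ := hy
      rw [← bD_apply]
      refine Submodule.subset_span ⟨T, fun p hp => ?_, rfl⟩
      rcases Finset.mem_insert.1 (hT hp) with rfl | hp
      · rwa [blk_idx]
      · exact hS p hp
    | zero => simp
    | add y y' _ _ hy hy' => rw [map_add]; exact add_mem hy hy'
    | smul s y _ hy => rw [map_smul]; exact Submodule.smul_of_tower_mem _ _ hy
  | zero => simp
  | add y y' _ _ hy hy' => rw [mul_add]; exact add_mem hy hy'
  | smul s y _ hy => rw [mul_smul_comm]; exact Submodule.smul_mem _ _ hy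

lemma adjoin_le_below (k : Fin n) {x : DCl (copyCoef a)}
    (hx : x ∈ Algebra.adjoin (Fr K (Fin (n * n))) {y | ∃ l i, l < k ∧ y = gD a l i}) :
    x ∈ below a k := by
  have key : ∀ w ∈ below a k, x * w ∈ below a k := by
    induction hx using Algebra.adjoin_induction with
    | mem y hy =>
      obtain ⟨l, i, hl, rfl⟩ := hy
      exact fun w hw => gD_mul_mem_below a hl i hw
    | algebraMap r => intro w hw; rw [← Algebra.smul_def]; exact Submodule.smul_mem _ _ hw
    | add x y _ _ hx hy => intro w hw; rw [add_mul]; exact add_mem (hx w hw) (hy w hw)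
    | mul x y _ _ hx hy => intro w hw; rw [mul_assoc]; exact hx _ (hy w hw)
  have h1 : (1 : DCl (copyCoef a)) ∈ below a k := Submodule.subset_span
    ⟨∅, by simp, by rw [bD_apply, bR_empty, map_one]⟩
  simpa using key 1 h1

lemma exists_kernel_adjoin {F B : Type*} [Field F] [Ring B] [Algebra F B] [FiniteDimensional F B]
    [Nontrivial B] (g : Fin n → Fin n → B) (k : Fin n) :
    ∃ w : Fin n → B, w ≠ 0 ∧
      (∀ i, w i ∈ Algebra.adjoin F {y | ∃ l i, l < k ∧ y = g l i}) ∧
      ∀ l, l < k → ∑ i, g l i * w i = 0 := by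
  classical
  let A := (Algebra.adjoin F {y | ∃ l i, l < k ∧ y = g l i}).toSubmodule
  have h1 : (1 : B) ∈ A := Subalgebra.one_mem _
  have hg : ∀ (l : {l : Fin n // l < k}) (i : Fin n), ∀ y ∈ A, g l.1 i * y ∈ A :=
    fun l i y hy => Subalgebra.mul_mem _ (Algebra.subset_adjoin ⟨l.1, i, l.2, rfl⟩) hy
  let Φ : (Fin n → A) →ₗ[F] ({l : Fin n // l < k} → A) :=
    LinearMap.pi fun l => ∑ i, (((LinearMap.mulLeft F (g l.1 i)).comp
      A.subtype).codRestrict A fun y => hg l i y.1 y.2).comp (LinearMap.proj i)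
  have hApos : 0 < finrank F A :=
    Submodule.one_le_finrank_iff.2 fun h => one_ne_zero ((Submodule.eq_bot_iff A).1 h 1 h1)
  have hker : LinearMap.ker Φ ≠ ⊥ := by
    apply LinearMap.ker_ne_bot_of_finrank_lt
    rw [Module.finrank_pi_fintype, Module.finrank_pi_fintype]
    simp only [Finset.sum_const, Finset.card_univ, smul_eq_mul, Fintype.card_fin]
    refine Nat.mul_lt_mul_of_pos_right ?_ hApos
    have : Fintype.card {l : Fin n // l < k} = k := by
      rw [Fintype.card_subtype, Finset.filter_gt_eq_Iio, Fin.card_Iio]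
    omega
  obtain ⟨w, hw, hw0⟩ := Submodule.exists_mem_ne_zero_of_ne_bot hker
  refine ⟨fun i => (w i : B), fun h => hw0 (funext fun i =>
    Subtype.ext (congrFun h i)), fun i => (w i).2, fun l hl => ?_⟩
  have := congrArg (fun y => ((y ⟨l, hl⟩ : A) : B)) (LinearMap.mem_ker.1 hw)
  simp only [Φ, LinearMap.pi_apply, LinearMap.sum_apply, Submodule.coe_sum, Pi.zero_apply,
    ZeroMemClass.coe_zero] at this
  exact this

lemma gD_independent [NoZeroDivisors (DCl (copyCoef a))] [Nontrivial (DCl (copyCoef a))]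
    (b : Fin n → DCl (copyCoef a)) (hb : ∀ i, ∑ l, b l * gD a l i = 0) : b = 0 := by
  classical
  by_contra hne
  obtain ⟨l₀, hl₀⟩ := Function.ne_iff.1 hne
  obtain ⟨k, hk, hmax⟩ := (Finset.univ.filter fun l => b l ≠ 0).exists_max_image id
    ⟨l₀, by simpa using hl₀⟩
  simp only [Finset.mem_filter, Finset.mem_univ, true_and, id] at hk hmax
  have : FiniteDimensional (Fr K (Fin (n * n))) (DCl (copyCoef a)) :=
    Module.Finite.of_basis (bD (copyCoef a))
  obtain ⟨w, hw0, hwA, hlow⟩ := exists_kernel_adjoin (F := Fr K (Fin (n * n))) (gD a) k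
  have hw : ∀ i, w i ∈ below a k := fun i => adjoin_le_below a k (hwA i)
  have hk0 : b k * ∑ i, gD a k i * w i = 0 := by
    calc b k * ∑ i, gD a k i * w i = ∑ l, b l * ∑ i, gD a l i * w i := by
          symm
          refine Finset.sum_eq_single k ?_ ?_
          · intro l _ hne'
            rcases lt_or_gt_of_ne hne' with hlt | hgt
            · rw [hlow l hlt, mul_zero]
            · rw [show b l = 0 from by_contra fun h => not_lt.2 (hmax l h) hgt, zero_mul]
          · simp
      _ = ∑ i, (∑ l, b l * gD a l i) * w i := by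
          simp only [Finset.mul_sum, Finset.sum_mul, mul_assoc]
          exact Finset.sum_comm
      _ = 0 := Finset.sum_eq_zero fun i _ => by rw [hb i, zero_mul]
  exact hw0 (eq_zero_of_sum_gD_mul a hw ((mul_eq_zero.1 hk0).resolve_left hk))

lemma exists_inverse {D : Type*} [DivisionRing D] (G : Fin n → Fin n → D)
    (h : ∀ b : Fin n → D, (∀ i, ∑ l, b l * G l i = 0) → b = 0) :
    ∃ E : Fin n → Fin n → D, ∀ i j, ∑ k, E i k * G k j = if i = j then 1 else 0 := by
  classical
  have hind : LinearIndependent D G := by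
    rw [Fintype.linearIndependent_iff]
    intro b hb i
    exact congrFun (h b fun j => by
      simpa [Finset.sum_apply] using congrFun hb j) i
  have htop : Submodule.span D (Set.range G) = ⊤ :=
    hind.span_eq_top_of_card_eq_finrank' (by simp)
  have hE : ∀ i : Fin n, ∃ e : Fin n → D, ∑ k, e k • G k = Pi.single i 1 := fun i =>
    (Submodule.mem_span_range_iff_exists_fun _).1 (htop ▸ Submodule.mem_top)
  choose E hE using hE
  refine ⟨E, fun i j => ?_⟩
  have := congrFun (hE i) j
  simpa [Finset.sum_apply, Pi.single_apply, eq_comm] using this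

lemma toD_param (k : Fin n) (b : Fin n → K) :
    toD (copyCoef a) (algebraMap (Par K (Fin (n * n))) (Cl (copyCoef a))
      (∑ l, C (b l) * X (idx k l))) =
      ∑ l, b l • toD (copyCoef a) ((X (idx k l) : Par K (Fin (n * n))) • 1) := by
  simp only [map_sum]
  refine Finset.sum_congr rfl fun l _ => ?_
  rw [Algebra.algebraMap_eq_smul_one, C_eq_smul_one, smul_mul_assoc, one_mul, smul_assoc]
  exact ((toD (copyCoef a)).toLinearMap.restrictScalars K).map_smul _ _

/-- Anticommuting linear factorisations over a division ring, with invertible matrix. -/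
theorem exists_factorisation (hn : 0 < n) {f : Fin n → MvPolynomial (Fin n) K}
    (hf : ∀ i, (f i).IsHomogeneous 2) (hreg : RegList ⊥ (List.ofFn f)) :
    ∃ (D : Type u) (_ : DivisionRing D) (_ : Algebra K D) (g z : Fin n → Fin n → D)
      (a : Fin n → Fin n → Fin n → K),
      (∀ l, f l = ∑ i, ∑ j, a l i j • (X i * X j : MvPolynomial (Fin n) K)) ∧
      (∀ k l, k ≠ l → ∀ i j, g k i * g l j + g l j * g k i = 0) ∧
      (∀ k i, g k i * g k i = ∑ l, a l i i • z k l) ∧
      (∀ k i j, g k i * g k j + g k j * g k i = ∑ l, (a l i j + a l j i) • z k l) ∧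
      ∃ E : Fin n → Fin n → D, ∀ i j, ∑ k, E i k * g k j = if i = j then 1 else 0 := by
  choose a ha using fun l => exists_coeff (hf l)
  obtain ⟨lst, hnd, hmem, hregF⟩ := regList_copyForm hf hreg
  have hhom : ∀ p, (copyForm f p).IsHomogeneous 2 := fun p => (hf _).rename_isHomogeneous
  have hdom : NoZeroDivisors (Cl (copyCoef a)) := noZeroDivisors (copyForm f) (Equiv.refl _) hhom
    (syzygy (copyForm f) lst hnd hmem (fun p => ⟨2, two_pos, hhom p⟩) hregF) (copyForm_eq ha)
    (finrank_quoDeg (copyForm f) rfl hhom lst hnd hmem hregF) (by simp; omega)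
  have hzero : NoZeroDivisors (DCl (copyCoef a)) := noZeroDivisors_D
  have hne : Nontrivial (DCl (copyCoef a)) := ⟨⟨toD _ 1, 0, fun h => by
    have h1 : (1 : Cl (copyCoef a)) = 0 :=
      toD_injective _ (h.trans (map_zero (toD (copyCoef a))).symm)
    exact (bR (copyCoef a)).ne_zero ∅ ((bR_empty _).trans h1)⟩⟩
  have hind := gD_independent a
  have hdomain : IsDomain (DCl (copyCoef a)) := NoZeroDivisors.to_isDomain _
  have hfin : FiniteDimensional (Fr K (Fin (n * n))) (DCl (copyCoef a)) :=
    Module.Finite.of_basis (bD (copyCoef a))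
  let instD : DivisionRing (DCl (copyCoef a)) :=
    divisionRingOfFiniteDimensional (Fr K (Fin (n * n))) (DCl (copyCoef a))
  refine ⟨DCl (copyCoef a), instD, inferInstance, gD a,
    fun k l => toD _ ((X (idx k l) : Par K (Fin (n * n))) • 1), a, ha, ?_, ?_, ?_,
    exists_inverse (gD a) hind⟩
  · intro k l hkl i j
    rw [← map_mul, ← map_mul, ← map_add, gen_swap, bco_copy_ne a hkl, bco_copy_ne a hkl.symm,
      add_zero, map_zero, map_zero]
  · intro k i
    rw [← map_mul, gen_mul_self, bco_copy_eq]
    exact toD_param a k fun l => a l i i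
  · intro k i j
    rw [← map_mul, ← map_mul, ← map_add, gen_swap, bco_copy_eq, bco_copy_eq,
      ← Finset.sum_add_distrib]
    simp only [← add_mul, ← map_add]
    exact toD_param a k fun l => a l i j + a l j i

end Vale.Agent.P200.Quad
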