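import Vale.Agent.P200.Quad.Graded

/-!
A graded module over the Clifford algebra has an eventually vanishing alternating sum.
-/

namespace Vale.Agent.P200.Quad

open MvPolynomial Module
open scoped TensorProduct

variable {K : Type*} [Field K]

/-- Evaluation of the left tensor factor by a functional. -/
noncomputable def evalT {U V : Type*} [AddCommGroup U] [Module K U] [AddCommGroup V] [Module K V]
    (φ : U →ₗ[K] K) : U ⊗[K] V →ₗ[K] V :=
  (TensorProduct.lid K V).toLinearMap ∘ₗ φ.rTensor V

lemma evalT_tmul {U V : Type*} [AddCommGroup U] [Module K U] [AddCommGroup V] [Module K V]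
    (φ : U →ₗ[K] K) (x : U) (v : V) : evalT φ (x ⊗ₜ v) = φ x • v := by
  simp [evalT]

lemma eq_zero_of_evalT {U V : Type*} [AddCommGroup U] [Module K U] [AddCommGroup V] [Module K V]
    {ι : Type*} (b : Basis ι K U) {y : U ⊗[K] V} (h : ∀ p, evalT (b.coord p) y = 0) : y = 0 := by
  classical
  apply (TensorProduct.equivFinsuppOfBasisLeft b).injective
  rw [map_zero]
  ext p
  rw [TensorProduct.equivFinsuppOfBasisLeft_apply, Finsupp.zero_apply]
  exact h p

lemma eq_zero_of_sum_tmul {U V : Type*} [AddCommGroup U] [Module K U] [AddCommGroup V] [Module K V]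
    {ι : Type*} [Fintype ι] {x : ι → U} (hx : LinearIndependent K x) {v : ι → V}
    (h : ∑ b, x b ⊗ₜ[K] v b = 0) : ∀ b, v b = 0 := by
  classical
  intro b
  obtain ⟨g, hg⟩ := LinearMap.exists_leftInverse_of_injective
    (Fintype.linearCombination K x) (LinearMap.ker_eq_bot.2
      hx.fintypeLinearCombination_injective)
  have hgx : ∀ b', g (x b') = Pi.single b' 1 := fun b' => by
    have := LinearMap.congr_fun hg (Pi.single b' 1)
    simpa [Fintype.linearCombination_apply_single] using this
  have := congrArg (evalT (V := V) ((LinearMap.proj b).comp g)) h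
  simpa [evalT_tmul, hgx, Pi.single_apply, ite_smul] using this

variable {σ τ : Type*} [Fintype σ] [LinearOrder σ] [Fintype τ] (c : τ → σ → σ → K)

instance tower_tensor (V : Type*) [AddCommGroup V] [Module K V] :
    IsScalarTower K (Par K τ) (Cl c ⊗[K] V) :=
  TensorProduct.isScalarTower_left

/-- Symmetric sums see only the quadratic form. -/
lemma sum_gen_gen {V : Type*} [AddCommGroup V] [Module K V] (g : σ → σ → V)
    (hg : ∀ i j, g i j = g j i) :
    ∑ i, ∑ j, (gen c i * gen c j) ⊗ₜ[K] g i j =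
      ∑ l, ((X l : Par K τ) • (1 : Cl c)) ⊗ₜ[K] ∑ i, ∑ j, c l i j • g i j := by
  have hR : ∑ l, ((X l : Par K τ) • (1 : Cl c)) ⊗ₜ[K] (∑ i, ∑ j, c l i j • g i j) =
      ∑ i, ∑ j, algebraMap (Par K τ) (Cl c) (bco c i j) ⊗ₜ[K] g i j := by
    simp only [TensorProduct.tmul_sum, bco, map_sum, TensorProduct.sum_tmul]
    rw [Finset.sum_comm]
    refine Finset.sum_congr rfl fun i _ => ?_
    rw [Finset.sum_comm]
    refine Finset.sum_congr rfl fun j _ => Finset.sum_congr rfl fun l _ => ?_
    rw [TensorProduct.tmul_smul, Algebra.algebraMap_eq_smul_one,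
      mul_smul, C_eq_smul_one, smul_assoc, one_smul]
    exact TensorProduct.smul_tmul' _ _ _
  rw [hR, ← sub_eq_zero, ← Finset.sum_sub_distrib]
  simp only [← Finset.sum_sub_distrib, ← TensorProduct.sub_tmul, ← Finset.sum_product']
  refine Finset.sum_involution (fun p _ => (p.2, p.1)) ?_ ?_ (fun p _ => by simp) (fun p _ => rfl)
  · rintro ⟨i, j⟩ -
    rw [hg j i, ← TensorProduct.add_tmul]
    have : gen c i * gen c j - algebraMap (Par K τ) (Cl c) (bco c i j) +
        (gen c j * gen c i - algebraMap (Par K τ) (Cl c) (bco c j i)) = 0 := by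
      rw [show gen c i * gen c j - algebraMap (Par K τ) (Cl c) (bco c i j) +
          (gen c j * gen c i - algebraMap (Par K τ) (Cl c) (bco c j i)) =
          gen c i * gen c j + gen c j * gen c i -
          (algebraMap (Par K τ) (Cl c) (bco c i j) + algebraMap (Par K τ) (Cl c) (bco c j i)) by abel,
        gen_swap, map_add, sub_self]
    rw [this, TensorProduct.zero_tmul]
  · rintro ⟨i, j⟩ - hne heq
    simp only [Prod.mk.injEq] at heq
    obtain ⟨rfl, -⟩ := heq
    exact hne (by simp [gen_mul_self])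

variable (f : τ → MvPolynomial σ K)

/-- The quotient by the quadrics. -/
abbrev Quo : Type _ := MvPolynomial σ K ⧸ Ideal.span (Set.range f)

/-- The quotient map. -/
noncomputable def mkA : MvPolynomial σ K →ₗ[K] Quo f :=
  (Ideal.Quotient.mkₐ K (Ideal.span (Set.range f))).toLinearMap

/-- A degree piece of the quotient. -/
noncomputable def quoDeg (i : ℕ) : Submodule K (Quo f) :=
  (homogeneousSubmodule σ K i).map (mkA f)

/-- The quotient map after tensoring. -/
noncomputable def mkT : Cl c ⊗[K] MvPolynomial σ K →ₗ[Par K τ] Cl c ⊗[K] Quo f :=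
  TensorProduct.AlgebraTensorModule.map LinearMap.id (mkA f)

lemma mkT_tmul (x : Cl c) (u : MvPolynomial σ K) : mkT c f (x ⊗ₜ u) = x ⊗ₜ mkA f u := rfl

/-- The linear factorisation on polynomials. -/
noncomputable def rhoT : Cl c ⊗[K] MvPolynomial σ K →ₗ[Par K τ] Cl c ⊗[K] MvPolynomial σ K :=
  ∑ i, TensorProduct.AlgebraTensorModule.map (LinearMap.mulRight (Par K τ) (gen c i))
    (LinearMap.mulLeft K (X i))

/-- The linear factorisation on the quotient. -/
noncomputable def rhoA : Cl c ⊗[K] Quo f →ₗ[Par K τ] Cl c ⊗[K] Quo f :=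
  ∑ i, TensorProduct.AlgebraTensorModule.map (LinearMap.mulRight (Par K τ) (gen c i))
    (LinearMap.mulLeft K (mkA f (X i)))

lemma rhoT_tmul (x : Cl c) (u : MvPolynomial σ K) :
    rhoT c (x ⊗ₜ u) = ∑ i, (x * gen c i) ⊗ₜ (X i * u) := by
  simp [rhoT, LinearMap.sum_apply]

lemma rhoA_tmul (x : Cl c) (a : Quo f) :
    rhoA c f (x ⊗ₜ a) = ∑ i, (x * gen c i) ⊗ₜ (mkA f (X i) * a) := by
  simp [rhoA, LinearMap.sum_apply]

lemma mkT_rhoT (y : Cl c ⊗[K] MvPolynomial σ K) : mkT c f (rhoT c y) = rhoA c f (mkT c f y) := by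
  induction y using TensorProduct.induction_on with
  | zero => simp
  | tmul x u => simp [rhoT_tmul, rhoA_tmul, mkT_tmul, mkA, map_sum]
  | add a b ha hb => simp [ha, hb]

/-- Multiplication by a quadric on the right factor. -/
noncomputable def fT (l : τ) : Cl c ⊗[K] MvPolynomial σ K →ₗ[Par K τ] Cl c ⊗[K] MvPolynomial σ K :=
  TensorProduct.AlgebraTensorModule.map LinearMap.id (LinearMap.mulLeft K (f l))

lemma rhoT_fT (l : τ) (y : Cl c ⊗[K] MvPolynomial σ K) :
    rhoT c (fT c f l y) = fT c f l (rhoT c y) := by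
  induction y using TensorProduct.induction_on with
  | zero => simp
  | tmul x u => simp [fT, rhoT_tmul, map_sum, mul_left_comm]
  | add a b ha hb => simp [ha, hb]

variable (hc : ∀ l, f l = ∑ i, ∑ j, c l i j • (X i * X j : MvPolynomial σ K))

include hc in
lemma rhoT_rhoT (y : Cl c ⊗[K] MvPolynomial σ K) :
    rhoT c (rhoT c y) = ∑ l, (X l : Par K τ) • fT c f l y := by
  induction y using TensorProduct.induction_on with
  | zero => simp
  | tmul x u =>
    let ψ : Cl c ⊗[K] MvPolynomial σ K →ₗ[K] Cl c ⊗[K] MvPolynomial σ K :=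
      TensorProduct.map (LinearMap.mulLeft K x) (LinearMap.mulRight K u)
    have h := congrArg ψ (sum_gen_gen c (fun i j => X i * X j) fun i j => mul_comm _ _)
    simp only [map_sum, ψ, TensorProduct.map_tmul, LinearMap.mulLeft_apply,
      LinearMap.mulRight_apply] at h
    simp only [rhoT_tmul, map_sum, ← mul_assoc]
    calc ∑ i, ∑ j, (x * gen c i * gen c j) ⊗ₜ[K] (X j * X i * u)
        = ∑ i, ∑ j, (x * (gen c i * gen c j)) ⊗ₜ[K] (X i * X j * u) :=
          Finset.sum_congr rfl fun i _ => Finset.sum_congr rfl fun j _ => by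
            rw [mul_assoc x, mul_comm (X j)]
      _ = _ := h
      _ = _ := Finset.sum_congr rfl fun l _ => by
          simp only [fT, TensorProduct.AlgebraTensorModule.map_tmul, LinearMap.id_apply,
            LinearMap.mulLeft_apply, TensorProduct.smul_tmul', hc l, mul_smul_comm, mul_one]
          simp only [Finset.sum_mul, smul_mul_assoc]
  | add a b ha hb => simp [ha, hb, Finset.sum_add_distrib]

include hc in
lemma rhoA_rhoA (y : Cl c ⊗[K] Quo f) : rhoA c f (rhoA c f y) = 0 := by
  obtain ⟨z, rfl⟩ : ∃ z, mkT c f z = y := by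
    exact LinearMap.lTensor_surjective (Cl c) (g := mkA f) (Ideal.Quotient.mkₐ_surjective K _) y
  rw [← mkT_rhoT, ← mkT_rhoT, rhoT_rhoT c f hc, map_sum]
  refine Finset.sum_eq_zero fun l _ => ?_
  rw [map_smul]
  suffices mkT c f (fT c f l z) = 0 by rw [this, smul_zero]
  clear hc
  induction z using TensorProduct.induction_on with
  | zero => simp
  | tmul x u =>
    have : mkA f (f l * u) = 0 :=
      Ideal.Quotient.eq_zero_iff_mem.2 (Ideal.mul_mem_right _ _ (Ideal.subset_span ⟨l, rfl⟩))
    simp [fT, mkT_tmul, this]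
  | add a b ha hb => simp [ha, hb]

end Vale.Agent.P200.Quad
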