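import Vale.Agent.P200.Quad.Cliff

/-!
The grading of the Clifford algebra.
-/

namespace Vale.Agent.P200.Quad

open MvPolynomial Module

variable {K : Type*} [Field K] {σ τ : Type*} [Fintype σ] [LinearOrder σ] [Fintype τ]
variable (c : τ → σ → σ → K)

/-- Weight `d` with fewer than `k` exterior letters. -/
noncomputable def low (k d : ℕ) : Submodule K (Cl c) :=
  Submodule.span K (bK c '' {p | wt p = d ∧ p.2.card < k})

lemma low_le_deg (k d : ℕ) : low c k d ≤ deg c d :=
  Submodule.span_mono (Set.image_mono fun _ hp => hp.1)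

lemma low_mono {k k' : ℕ} (h : k ≤ k') (d : ℕ) : low c k d ≤ low c k' d :=
  Submodule.span_mono (Set.image_mono fun _ hp => ⟨hp.1, lt_of_lt_of_le hp.2 h⟩)

lemma map_smul_K (f : Cl c →ₗ[Par K τ] Cl c) (a : K) (r : Cl c) : f (a • r) = a • f r :=
  (f.restrictScalars K).map_smul a r

lemma eps_low (i : σ) {k d : ℕ} {r : Cl c} (hr : r ∈ low c k d) :
    eps c i r ∈ low c (k + 1) (d + 1) := by
  induction hr using Submodule.span_induction with
  | mem x hx =>
    obtain ⟨⟨α, S⟩, ⟨hw, hk⟩, rfl⟩ := hx
    rw [bK_apply, map_smul]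
    by_cases h : i ∈ S
    · simp [eps_mem c i S h]
    · obtain ⟨u, hu⟩ := eps_not_mem c i S h
      rw [hu, Units.smul_def, smul_comm, ← bK_apply]
      refine Submodule.smul_of_tower_mem _ _ (Submodule.subset_span ⟨_, ⟨?_, ?_⟩, rfl⟩)
      · simp only [wt, Finset.card_insert_of_notMem h] at hw ⊢; omega
      · simp only [Finset.card_insert_of_notMem h] at hk ⊢; omega
  | zero => simp
  | add x y _ _ hx hy => rw [map_add]; exact add_mem hx hy
  | smul a x _ hx => rw [map_smul_K]; exact Submodule.smul_mem _ _ hx

lemma bR_empty : bR c (∅ : Finset σ) = 1 := by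
  rw [bR_apply, bExt_empty, phi_one]

lemma one_mem_deg : (1 : Cl c) ∈ deg c 0 := by
  have := bR_mem_deg c (∅ : Finset σ)
  rwa [bR_empty, Finset.card_empty] at this

lemma kap_one (i : σ) : kap c i 1 = 0 := by
  have : (phi c).symm 1 = 1 := by
    apply (phi c).injective
    rw [LinearEquiv.apply_symm_apply]
    exact (phi_one c).symm
  simp [kap, this, CliffordAlgebra.contractLeft_one]

lemma kap_eps (i a : σ) (r : Cl c) :
    kap c i (eps c a r) = bco c i a • r - eps c a (kap c i r) := by
  obtain ⟨x, rfl⟩ := (phi c).surjective r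
  simp only [eps, kap, LinearMap.comp_apply, LinearEquiv.coe_coe, LinearEquiv.symm_apply_apply,
    LinearMap.mulLeft_apply, egen]
  rw [show ExteriorAlgebra.ι (Par K τ) (Pi.single a 1 : σ → Par K τ) =
    CliffordAlgebra.ι (0 : QuadraticForm (Par K τ) (σ → Par K τ)) (Pi.single a 1) from rfl,
    CliffordAlgebra.contractLeft_ι_mul, map_sub, map_smul, bil_single]

lemma kap_bR (i : σ) (S : Finset σ) : kap c i (bR c S) ∈ low c S.card (S.card + 1) := by
  induction S using Finset.induction_on with
  | empty => simp [bR_empty, kap_one]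
  | insert a S ha ih =>
    obtain ⟨u, hu⟩ := eps_not_mem c a S ha
    have hS : bR c (insert a S) = u⁻¹ • eps c a (bR c S) := by rw [hu, inv_smul_smul]
    rw [hS, Units.smul_def, map_zsmul, kap_eps, Finset.card_insert_of_notMem ha]
    refine Submodule.smul_of_tower_mem _ _ (sub_mem ?_ (eps_low c a ih))
    rw [bco, Finset.sum_smul]
    refine sum_mem fun l _ => ?_
    rw [mul_smul, C_eq_smul_one, smul_assoc, one_smul]
    refine Submodule.smul_mem _ _ (Submodule.subset_span
      ⟨(Finsupp.single l 1, S), ⟨?_, Nat.lt_succ_self _⟩, ?_⟩)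
    · simp only [wt, Finsupp.degree_single]; omega
    · rw [bK_apply]; rfl

lemma gen_mul_deg (i : σ) {d : ℕ} {r : Cl c} (hr : r ∈ deg c d) :
    gen c i * r ∈ deg c (d + 1) := by
  induction hr using Submodule.span_induction with
  | mem x hx =>
    obtain ⟨⟨α, S⟩, hw, rfl⟩ := hx
    rw [bK_apply, mul_smul_comm, gen_mul]
    have h1 : eps c i (bR c S) + kap c i (bR c S) ∈ deg c (S.card + 1) := by
      refine add_mem ?_ (low_le_deg c _ _ (kap_bR c i S))
      by_cases h : i ∈ S
      · simp [eps_mem c i S h]
      · obtain ⟨u, hu⟩ := eps_not_mem c i S h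
        rw [hu, Units.smul_def, ← Finset.card_insert_of_notMem h]
        exact Submodule.smul_of_tower_mem _ _ (bR_mem_deg c _)
    have := monomial_smul_deg c (α := α) h1 1
    simp only [wt, Set.mem_ofPred_eq] at hw
    rwa [show S.card + 1 + 2 * α.degree = d + 1 by omega] at this
  | zero => simp
  | add x y _ _ hx hy => rw [mul_add]; exact add_mem hx hy
  | smul a x _ hx => rw [mul_smul_comm]; exact Submodule.smul_mem _ _ hx

lemma bR_mul_deg : ∀ (k : ℕ) (S : Finset σ), S.card ≤ k → ∀ {d : ℕ} {r : Cl c},
    r ∈ deg c d → bR c S * r ∈ deg c (S.card + d) := by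
  intro k
  induction k with
  | zero =>
    intro S hS d r hr
    obtain rfl := Finset.card_eq_zero.1 (Nat.le_zero.1 hS)
    simpa [bR_empty] using hr
  | succ k ih =>
    intro S hS d r hr
    rcases S.eq_empty_or_nonempty with rfl | ⟨a, ha⟩
    · simpa [bR_empty] using hr
    set S' := S.erase a with hS'
    have hins : insert a S' = S := Finset.insert_erase ha
    have hcard : S.card = S'.card + 1 := by
      rw [← hins, Finset.card_insert_of_notMem (Finset.notMem_erase a S)]
    obtain ⟨u, hu⟩ := eps_not_mem c a S' (Finset.notMem_erase a S)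
    have hdec : bR c S = u⁻¹ • (gen c a * bR c S' - kap c a (bR c S')) := by
      rw [gen_mul, add_sub_cancel_right, hu, inv_smul_smul, hins]
    rw [hdec, Units.smul_def, smul_mul_assoc, sub_mul, mul_assoc]
    refine Submodule.smul_of_tower_mem _ _ (sub_mem ?_ ?_)
    · have := gen_mul_deg c a (ih S' (by omega) hr)
      rwa [show S'.card + d + 1 = S.card + d by omega] at this
    · have hlow : ∀ x ∈ low c S'.card (S'.card + 1), x * r ∈ deg c (S.card + d) := by
        intro x hx
        induction hx using Submodule.span_induction with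
        | mem y hy =>
          obtain ⟨⟨α, T⟩, ⟨hw, hT⟩, rfl⟩ := hy
          simp only [wt] at hw hT
          rw [bK_apply, smul_mul_assoc]
          have := monomial_smul_deg c (α := α) (ih T (by omega) hr) 1
          rwa [show T.card + d + 2 * α.degree = S.card + d by omega] at this
        | zero => simp
        | add y z _ _ hy hz => rw [add_mul]; exact add_mem hy hz
        | smul t y _ hy => rw [smul_mul_assoc]; exact Submodule.smul_mem _ _ hy
      exact hlow _ (kap_bR c a S')

lemma mul_mem_deg {a b : ℕ} {x y : Cl c} (hx : x ∈ deg c a) (hy : y ∈ deg c b) :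
    x * y ∈ deg c (a + b) := by
  induction hx using Submodule.span_induction with
  | mem z hz =>
    obtain ⟨⟨α, S⟩, hw, rfl⟩ := hz
    simp only [wt, Set.mem_ofPred_eq] at hw
    rw [bK_apply, smul_mul_assoc]
    have := monomial_smul_deg c (α := α) (bR_mul_deg c S.card S le_rfl hy) 1
    rwa [show S.card + b + 2 * α.degree = a + b by omega] at this
  | zero => simp
  | add z w _ _ hz hw => rw [add_mul]; exact add_mem hz hw
  | smul t z _ hz => rw [smul_mul_assoc]; exact Submodule.smul_mem _ _ hz

lemma gen_mem_deg (i : σ) : gen c i ∈ deg c 1 := by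
  simpa using gen_mul_deg c i (one_mem_deg c)

/-- The projection to weight `d`. -/
noncomputable def proj (d : ℕ) : Cl c →ₗ[K] Cl c :=
  (bK c).constr K fun p => if wt p = d then bK c p else 0

lemma proj_mem (d : ℕ) (r : Cl c) : proj c d r ∈ deg c d := by
  rw [proj, Basis.constr_apply]
  refine sum_mem fun p _ => Submodule.smul_mem _ _ ?_
  split_ifs with h
  · exact bK_mem_deg c h
  · exact zero_mem _

lemma proj_of_mem {d d' : ℕ} {r : Cl c} (hr : r ∈ deg c d') :
    proj c d r = if d' = d then r else 0 := by
  induction hr using Submodule.span_induction with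
  | mem x hx =>
    obtain ⟨p, hp, rfl⟩ := hx
    simp only [Set.mem_ofPred_eq] at hp
    rw [proj, Basis.constr_basis, hp]
  | zero => simp
  | add x y _ _ hx hy => rw [map_add, hx, hy]; split_ifs <;> simp
  | smul a x _ hx => rw [map_smul, hx]; split_ifs <;> simp

lemma exists_sum_proj (r : Cl c) : ∃ D, ∀ D' ≥ D, r = ∑ d ∈ Finset.range D', proj c d r := by
  refine ⟨((bK c).repr r).support.sup wt + 1, fun D' hD => ?_⟩
  conv_lhs => rw [← (bK c).linearCombination_repr r]
  simp only [proj, Basis.constr_apply, Finsupp.linearCombination_apply, Finsupp.sum]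
  rw [Finset.sum_comm]
  refine Finset.sum_congr rfl fun p hp => ?_
  rw [Finset.sum_eq_single (wt p)]
  · simp
  · intro d _ hd; simp [Ne.symm hd]
  · intro h
    have := Finset.le_sup (f := wt) hp
    simp only [Finset.mem_range, not_lt] at h
    omega

lemma exists_top {r : Cl c} (hr : r ≠ 0) :
    ∃ p, proj c p r ≠ 0 ∧ ∀ d, p < d → proj c d r = 0 := by
  classical
  obtain ⟨D, hD⟩ := exists_sum_proj c r
  have hz : ∀ d, D ≤ d → proj c d r = 0 := by
    intro d hd
    have h1 := hD D le_rfl
    have h2 := hD (d + 1) (by omega)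
    rw [Finset.sum_range_succ] at h2
    have h3 : r = ∑ e ∈ Finset.range d, proj c e r := hD d hd
    rw [← h3] at h2
    simpa using h2
  have hne : ((Finset.range D).filter fun d => proj c d r ≠ 0).Nonempty := by
    by_contra h
    rw [Finset.not_nonempty_iff_eq_empty, Finset.filter_eq_empty_iff] at h
    exact hr ((hD D le_rfl).trans (Finset.sum_eq_zero fun d hd => by simpa using h hd))
  refine ⟨_, (Finset.mem_filter.1 (Finset.max'_mem _ hne)).2, fun d hd => ?_⟩
  by_contra h
  have : d ∈ (Finset.range D).filter fun d => proj c d r ≠ 0 := by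
    simp only [Finset.mem_filter, Finset.mem_range]
    exact ⟨not_le.1 fun h' => h (hz d h'), h⟩
  have := Finset.le_max' _ d this
  omega

lemma proj_top_mul {x y : Cl c} {p q : ℕ} (hx : ∀ d, p < d → proj c d x = 0)
    (hy : ∀ d, q < d → proj c d y = 0) :
    proj c (p + q) (x * y) = proj c p x * proj c q y := by
  have hsum : ∀ (z : Cl c) (m : ℕ), (∀ d, m < d → proj c d z = 0) →
      z = ∑ d ∈ Finset.range (m + 1), proj c d z := by
    intro z m hm
    obtain ⟨D, hD⟩ := exists_sum_proj c z
    refine (hD (D + m + 1) (by omega)).trans ?_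
    rw [Finset.sum_subset (Finset.range_mono (show m + 1 ≤ D + m + 1 by omega))]
    intro d _ hd
    exact hm d (by simpa using hd)
  conv_lhs => rw [hsum x p hx, hsum y q hy, Finset.sum_mul_sum, map_sum]
  simp only [map_sum, proj_of_mem c (mul_mem_deg c (proj_mem c _ x) (proj_mem c _ y))]
  rw [Finset.sum_eq_single p, Finset.sum_eq_single q]
  · simp
  · intro d hd hne; rw [if_neg]; omega
  · intro h; simp at h
  · intro d hd hne
    refine Finset.sum_eq_zero fun e he => if_neg ?_
    simp only [Finset.mem_range] at hd he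
    omega
  · intro h; simp at h

lemma proj_monomial_smul {d d' : ℕ} {r : Cl c} (hr : r ∈ deg c d') (β : τ →₀ ℕ) (a : K) :
    proj c d (monomial β a • r) = if d' + 2 * β.degree = d then monomial β a • r else 0 :=
  proj_of_mem c (monomial_smul_deg c hr a)

omit [Fintype σ] [LinearOrder σ] in
lemma finrank_homog (d : ℕ) : finrank K (homogeneousSubmodule σ K d) =
    Nat.card {e : σ →₀ ℕ // e.degree = d} := by
  rw [show homogeneousSubmodule σ K d = restrictSupport K {e : σ →₀ ℕ | e.degree = d} by
    ext u
    rw [mem_homogeneousSubmodule, mem_restrictSupport_iff]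
    refine ⟨fun h e he => by_contra fun hne => (MvPolynomial.mem_support_iff.1 he)
      (h.coeff_eq_zero hne), fun h e he => ?_⟩
    have := h (MvPolynomial.mem_support_iff.2 he)
    simp only [Set.mem_ofPred_eq, Finsupp.degree_eq_weight_one] at this
    exact this]
  rw [Module.finrank_eq_nat_card_basis (basisRestrictSupport K _)]
  rfl

/-- An exponent as a weight two part and an exterior part. -/
noncomputable def splitExp (ψ : σ ≃ τ) : (σ →₀ ℕ) ≃ (τ →₀ ℕ) × Finset σ where
  toFun e := (Finsupp.equivFunOnFinite.symm fun l => e (ψ.symm l) / 2,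
    Finset.univ.filter fun i => e i % 2 = 1)
  invFun p := Finsupp.equivFunOnFinite.symm fun i => 2 * p.1 (ψ i) + if i ∈ p.2 then 1 else 0
  left_inv e := by
    ext i
    simp only [Finsupp.coe_equivFunOnFinite_symm, Equiv.symm_apply_apply, Finset.mem_filter,
      Finset.mem_univ, true_and]
    split_ifs <;> omega
  right_inv p := by
    refine Prod.ext (Finsupp.ext fun l => ?_) (Finset.ext fun i => ?_)
    · simp only [Finsupp.coe_equivFunOnFinite_symm, Equiv.apply_symm_apply]
      split_ifs <;> omega
    · rw [Finset.mem_filter]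
      simp only [Finsupp.coe_equivFunOnFinite_symm, Finset.mem_univ, true_and]
      by_cases h : i ∈ p.2 <;> simp [h] <;> omega

lemma wt_splitExp (ψ : σ ≃ τ) (e : σ →₀ ℕ) : wt (splitExp ψ e) = e.degree := by
  simp only [wt, splitExp, Equiv.coe_fn_mk, Finsupp.degree_eq_sum,
    Finsupp.coe_equivFunOnFinite_symm, Finset.card_filter]
  rw [Equiv.sum_comp ψ.symm (fun i => e i / 2), Finset.mul_sum, ← Finset.sum_add_distrib]
  refine Finset.sum_congr rfl fun i _ => ?_
  split_ifs <;> omega

lemma finrank_deg (ψ : σ ≃ τ) (d : ℕ) :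
    finrank K (deg c d) = finrank K (homogeneousSubmodule σ K d) := by
  rw [finrank_homog]
  let v : {p : (τ →₀ ℕ) × Finset σ // wt p = d} → Cl c := fun p => bK c p.1
  have hli : LinearIndependent K v := (bK c).linearIndependent.comp _ Subtype.val_injective
  have hspan : deg c d = Submodule.span K (Set.range v) := by
    rw [deg]; congr 1; ext x; simp [v]
  rw [hspan, Module.finrank_eq_nat_card_basis (Basis.span hli)]
  exact Nat.card_congr ((splitExp ψ).subtypeEquiv fun e => by rw [wt_splitExp]).symm

lemma finite_deg (ψ : σ ≃ τ) (d : ℕ) : Module.Finite K (deg c d) := by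
  have hfin : {p : (τ →₀ ℕ) × Finset σ | wt p = d}.Finite := by
    have : Finite {e : σ →₀ ℕ // e.degree = d} :=
      ((Finset.univ (α := σ)).finsuppAntidiag d).finite_toSet.subset (fun e he => by
        have : e.degree = d := he
        simpa [Finsupp.degree_eq_sum] using this) |>.to_subtype
    exact Set.finite_coe_iff.1 (Finite.of_equiv _
      ((splitExp ψ).subtypeEquiv fun e => by rw [Set.mem_ofPred_eq, wt_splitExp]))
  exact FiniteDimensional.span_of_finite K (hfin.image _)

end Vale.Agent.P200.Quad
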