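import Mathlib

/-!
The graded Clifford algebra of a linear system of quadrics.
-/

namespace Vale.Agent.P200.Quad

open MvPolynomial Module

variable {K : Type*} [Field K] {σ τ : Type*} [Fintype σ] [LinearOrder σ]

/-- Scalars of the Clifford algebra: polynomials in the parameters of the system. -/
abbrev Par (K : Type*) [Field K] (τ : Type*) : Type _ := MvPolynomial τ K

variable [Fintype τ]

/-- The value at a pair of coordinates of the generic bilinear form. -/
noncomputable def bco (c : τ → σ → σ → K) (i j : σ) : Par K τ := ∑ l, C (c l i j) * X l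

/-- The generic bilinear form of the system. -/
noncomputable def bil (c : τ → σ → σ → K) : LinearMap.BilinForm (Par K τ) (σ → Par K τ) :=
  Matrix.toBilin' (Matrix.of (bco c))

/-- The generic quadratic form of the system. -/
noncomputable def quad (c : τ → σ → σ → K) : QuadraticForm (Par K τ) (σ → Par K τ) :=
  (bil c).toQuadraticMap

/-- The graded Clifford algebra. -/
abbrev Cl (c : τ → σ → σ → K) : Type _ := CliffordAlgebra (quad c)

variable (c : τ → σ → σ → K)

/-- A generator. -/
noncomputable def gen (i : σ) : Cl c := CliffordAlgebra.ι (quad c) (Pi.single i 1)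

lemma bil_single (i j : σ) : bil c (Pi.single i 1) (Pi.single j 1) = bco c i j := by
  simp [bil, Matrix.toBilin'_single]

lemma gen_mul_self (i : σ) : gen c i * gen c i = algebraMap (Par K τ) _ (bco c i i) := by
  rw [gen, CliffordAlgebra.ι_sq_scalar]
  have h : quad c (Pi.single i 1) = bco c i i := by
    simp [quad, LinearMap.BilinMap.toQuadraticMap_apply, bil_single]
  rw [h]

lemma gen_swap (i j : σ) :
    gen c i * gen c j + gen c j * gen c i = algebraMap (Par K τ) _ (bco c i j + bco c j i) := by
  rw [gen, gen, CliffordAlgebra.ι_mul_ι_add_swap]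
  have h : QuadraticMap.polar (quad c) (Pi.single i 1) (Pi.single j 1) = bco c i j + bco c j i := by
    simp [quad, LinearMap.BilinMap.polar_toQuadraticMap, bil_single]
  rw [h]

/-- The comparison with the exterior algebra. -/
noncomputable def phi : ExteriorAlgebra (Par K τ) (σ → Par K τ) ≃ₗ[Par K τ] Cl c :=
  CliffordAlgebra.changeFormEquiv (B := bil c)
    (Q := (0 : QuadraticForm (Par K τ) (σ → Par K τ))) (Q' := quad c) (by simp [quad])

lemma phi_one : phi c 1 = 1 := by
  simp [phi, CliffordAlgebra.changeFormEquiv_apply]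

/-- The basis of the exterior algebra. -/
noncomputable def bExt : Basis (Finset σ) (Par K τ) (ExteriorAlgebra (Par K τ) (σ → Par K τ)) :=
  (Pi.basisFun (Par K τ) σ).ExteriorAlgebra

/-- A generator of the exterior algebra. -/
noncomputable def egen (i : σ) : ExteriorAlgebra (Par K τ) (σ → Par K τ) :=
  ExteriorAlgebra.ι (Par K τ) (Pi.single i 1)

/-- The monomial basis over the parameters. -/
noncomputable def bR : Basis (Finset σ) (Par K τ) (Cl c) := bExt.map (phi c)

lemma bR_apply (S : Finset σ) : bR c S = phi c (bExt S) := rfl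

omit [Fintype τ] in
lemma bExt_empty : bExt (K := K) (τ := τ) (∅ : Finset σ) = 1 := by
  rw [bExt, ExteriorAlgebra.basis_apply_ofCard _ Finset.card_empty]
  simp [ExteriorAlgebra.ιMulti_family, ExteriorAlgebra.ιMulti_zero_apply]

omit [Fintype τ] in
lemma bExt_singleton (i : σ) : bExt (K := K) (τ := τ) {i} = egen i := by
  rw [bExt, ExteriorAlgebra.basis_apply_ofCard _ (Finset.card_singleton i)]
  have hmem : ∀ a, (Set.powersetCard.ofFinEmbEquiv.symm
      (Set.powersetCard.ofCard (Finset.card_singleton i))) a = i := by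
    intro a
    have := (Set.powersetCard.mem_range_ofFinEmbEquiv_symm_iff_mem
      (Set.powersetCard.ofCard (Finset.card_singleton i))
      ((Set.powersetCard.ofFinEmbEquiv.symm (Set.powersetCard.ofCard (Finset.card_singleton i))) a)).1
      ⟨a, rfl⟩
    rwa [← Set.powersetCard.mem_coe_iff, Set.powersetCard.val_ofCard, Finset.mem_singleton] at this
  simp [ExteriorAlgebra.ιMulti_family, ExteriorAlgebra.ιMulti_apply, egen, hmem]

omit [Fintype τ] in
lemma egen_mul_bExt_mem (i : σ) (S : Finset σ) (h : i ∈ S) :
    egen (K := K) (τ := τ) i * bExt S = 0 := by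
  rw [← bExt_singleton, bExt]
  exact ExteriorAlgebra.basis_mul_of_not_disjoint (Pi.basisFun (Par K τ) σ)
    (Set.powersetCard.ofCard (Finset.card_singleton i)) (Set.powersetCard.ofCard (rfl : S.card = _))
    (by simp [h])

omit [Fintype τ] in
lemma egen_mul_bExt_not_mem (i : σ) (S : Finset σ) (h : i ∉ S) :
    ∃ u : ℤˣ, egen (K := K) (τ := τ) i * bExt S = u • bExt (insert i S) := by
  have hd : Disjoint (Set.powersetCard.ofCard (Finset.card_singleton i)).val
      (Set.powersetCard.ofCard (rfl : S.card = S.card)).val := by simp [h]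
  refine ⟨(Set.powersetCard.permOfDisjoint hd).sign, ?_⟩
  rw [← bExt_singleton, bExt]
  refine (ExteriorAlgebra.basis_mul_of_disjoint (Pi.basisFun (Par K τ) σ) _ _ hd).trans ?_
  congr 2
  rw [Set.powersetCard.coe_disjUnion, Finset.disjUnion_eq_union]
  simp only [Set.powersetCard.val_ofCard, Finset.singleton_union]

/-- The exterior part of left multiplication by a generator. -/
noncomputable def eps (i : σ) : Cl c →ₗ[Par K τ] Cl c :=
  (phi c).toLinearMap ∘ₗ LinearMap.mulLeft (Par K τ) (egen i) ∘ₗ (phi c).symm.toLinearMap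

/-- The contraction part of left multiplication by a generator. -/
noncomputable def kap (i : σ) : Cl c →ₗ[Par K τ] Cl c :=
  (phi c).toLinearMap ∘ₗ CliffordAlgebra.contractLeft (bil c (Pi.single i 1)) ∘ₗ
    (phi c).symm.toLinearMap

lemma gen_mul (i : σ) (r : Cl c) : gen c i * r = eps c i r + kap c i r := by
  obtain ⟨x, rfl⟩ := (phi c).surjective r
  simp only [eps, kap, LinearMap.comp_apply, LinearEquiv.coe_coe, LinearEquiv.symm_apply_apply,
    LinearMap.mulLeft_apply]
  simp only [phi, CliffordAlgebra.changeFormEquiv_apply, egen, gen, ExteriorAlgebra.ι]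
  rw [CliffordAlgebra.changeForm_ι_mul, CliffordAlgebra.changeForm_contractLeft]
  abel

lemma eps_mem (i : σ) (S : Finset σ) (h : i ∈ S) : eps c i (bR c S) = 0 := by
  simp [eps, bR_apply, egen_mul_bExt_mem i S h]

lemma eps_not_mem (i : σ) (S : Finset σ) (h : i ∉ S) :
    ∃ u : ℤˣ, eps c i (bR c S) = u • bR c (insert i S) := by
  obtain ⟨u, hu⟩ := egen_mul_bExt_not_mem (K := K) (τ := τ) i S h
  refine ⟨u, ?_⟩
  simp only [eps, bR_apply, LinearMap.comp_apply, LinearEquiv.coe_coe, LinearEquiv.symm_apply_apply,
    LinearMap.mulLeft_apply, hu, Units.smul_def, map_zsmul]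

/-- The monomial basis over the field. -/
noncomputable def bK : Basis ((τ →₀ ℕ) × Finset σ) K (Cl c) :=
  (basisMonomials τ K).smulTower (bR c)

lemma bK_apply (α : τ →₀ ℕ) (S : Finset σ) :
    bK c (α, S) = monomial α (1 : K) • bR c S := by
  simp [bK, Basis.smulTower_apply, coe_basisMonomials]

/-- The weight of a basis element. -/
noncomputable def wt (p : (τ →₀ ℕ) × Finset σ) : ℕ := 2 * p.1.degree + p.2.card

/-- The homogeneous piece of weight `d`. -/
noncomputable def deg (d : ℕ) : Submodule K (Cl c) :=
  Submodule.span K (bK c '' {p | wt p = d})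

lemma bK_mem_deg {p : (τ →₀ ℕ) × Finset σ} {d : ℕ} (h : wt p = d) : bK c p ∈ deg c d :=
  Submodule.subset_span ⟨p, h, rfl⟩

lemma bR_mem_deg (S : Finset σ) : bR c S ∈ deg c S.card := by
  have := bK_mem_deg c (p := ((0 : τ →₀ ℕ), S)) (d := S.card) (by simp [wt])
  rwa [bK_apply, monomial_zero', C_1, one_smul] at this

lemma monomial_smul_deg {α : τ →₀ ℕ} {d : ℕ} {r : Cl c} (hr : r ∈ deg c d) (a : K) :
    monomial α a • r ∈ deg c (d + 2 * α.degree) := by
  induction hr using Submodule.span_induction with
  | mem x hx =>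
    obtain ⟨⟨β, S⟩, hp, rfl⟩ := hx
    rw [bK_apply, smul_smul, monomial_mul, mul_one, show monomial (α + β) a =
      a • monomial (α + β) (1 : K) by simp [smul_monomial], smul_assoc, ← bK_apply]
    exact Submodule.smul_mem _ _ (bK_mem_deg c (by
      simp only [wt, map_add, Set.mem_ofPred_eq] at hp ⊢; omega))
  | zero => simp
  | add x y _ _ hx hy => rw [smul_add]; exact add_mem hx hy
  | smul k x _ hx => rw [smul_comm]; exact Submodule.smul_mem _ _ hx

lemma X_smul_deg (l : τ) {d : ℕ} {r : Cl c} (hr : r ∈ deg c d) :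
    (X l : Par K τ) • r ∈ deg c (d + 2) := by
  have := monomial_smul_deg c (α := Finsupp.single l 1) hr (1 : K)
  simpa [X] using this

lemma bco_smul_deg (i j : σ) {d : ℕ} {r : Cl c} (hr : r ∈ deg c d) :
    bco c i j • r ∈ deg c (d + 2) := by
  rw [bco, Finset.sum_smul]
  refine sum_mem fun l _ => ?_
  rw [mul_smul, C_eq_smul_one, smul_assoc, one_smul]
  exact Submodule.smul_mem _ _ (X_smul_deg c l hr)

end Vale.Agent.P200.Quad
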