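import Mathlib

/-! Two functions adding up to a binomial coefficient, with vanishing `m`-th differences, cannot
both grow like the binomial coefficient itself. -/

namespace Vale.Agent.P200.Quad

open fwdDiff Finset

lemma le_pow_of_fwdDiff_nonpos : ∀ (k : ℕ) (f : ℕ → ℤ) (s0 : ℕ),
    (∀ s, s0 ≤ s → (Δ_[1])^[k + 1] f s ≤ 0) →
      ∃ A : ℤ, 0 ≤ A ∧ ∀ s : ℕ, f s ≤ A * ((s : ℤ) + 1) ^ k := by
  intro k
  induction k with
  | zero =>
    intro f s0 h
    refine ⟨∑ i ∈ range (s0 + 1), |f i|, sum_nonneg fun _ _ => abs_nonneg _, fun s => ?_⟩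
    rw [pow_zero, mul_one]
    have key : ∀ j, j ≤ s0 → f j ≤ ∑ i ∈ range (s0 + 1), |f i| := fun j hj =>
      (le_abs_self (f j)).trans
        (single_le_sum (f := fun i => |f i|) (fun _ _ => abs_nonneg _) (mem_range.mpr (by omega)))
    rcases Nat.le_total s s0 with hs | hs
    · exact key s hs
    refine le_trans ?_ (key s0 le_rfl)
    obtain ⟨d, rfl⟩ := Nat.exists_eq_add_of_le hs
    clear hs
    induction d with
    | zero => simp
    | succ d ih =>
      have h2 := h (s0 + d) (by omega)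
      simp only [zero_add, Function.iterate_one, fwdDiff] at h2
      have e : s0 + (d + 1) = s0 + d + 1 := by omega
      rw [e]; linarith
  | succ k ih =>
    intro f s0 h
    obtain ⟨A, hA0, hA⟩ := ih (Δ_[1] f) s0 fun s hs => by
      have h2 := h s hs
      rwa [Function.iterate_succ_apply] at h2
    refine ⟨A + |f 0|, by positivity, ?_⟩
    intro s
    induction s with
    | zero => simp; linarith [le_abs_self (f 0)]
    | succ s hs =>
      have h2 := hA s
      simp only [fwdDiff] at h2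
      push_cast
      have hB : 0 ≤ A + |f 0| := by positivity
      have h3 : ((s : ℤ) + 1) ^ k ≤ ((s : ℤ) + 1 + 1) ^ k :=
        pow_le_pow_left₀ (by positivity) (by linarith) k
      have hs0 : (0 : ℤ) ≤ (s : ℤ) + 1 := by positivity
      have hk0 : (0 : ℤ) ≤ ((s : ℤ) + 1) ^ k := by positivity
      calc f (s + 1) ≤ f s + A * ((s : ℤ) + 1) ^ k := by linarith
        _ ≤ (A + |f 0|) * ((s : ℤ) + 1) ^ (k + 1) + (A + |f 0|) * ((s : ℤ) + 1) ^ k :=
          add_le_add hs (mul_le_mul_of_nonneg_right (by linarith [abs_nonneg (f 0)]) hk0)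
        _ = (A + |f 0|) * (((s : ℤ) + 1) ^ k * ((s : ℤ) + 1 + 1)) := by rw [pow_succ]; ring
        _ ≤ (A + |f 0|) * (((s : ℤ) + 1 + 1) ^ k * ((s : ℤ) + 1 + 1)) :=
          mul_le_mul_of_nonneg_left (mul_le_mul_of_nonneg_right h3 (by linarith)) hB
        _ = (A + |f 0|) * ((s : ℤ) + 1 + 1) ^ (k + 1) := by rw [pow_succ]

lemma iter_eq_zero_of_alt {m : ℕ} {h : ℕ → ℤ} {s : ℕ}
    (he : ∑ i ∈ range (m + 1), (-1 : ℤ) ^ i * (m.choose i) * h (s + i) = 0) :
    (Δ_[1])^[m] h s = 0 := by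
  rw [fwdDiff_iter_eq_sum_shift]
  have e : ∀ i ∈ range (m + 1), ((-1 : ℤ) ^ (m - i) * m.choose i) • h (s + i • 1)
      = (-1 : ℤ) ^ m * ((-1 : ℤ) ^ i * (m.choose i) * h (s + i)) := by
    intro i hi
    have hle : i ≤ m := by simpa using Finset.mem_range_succ_iff.mp hi
    rw [smul_eq_mul, smul_eq_mul, mul_one]
    have e2 : (-1 : ℤ) ^ (m - i) = (-1) ^ m * (-1) ^ i := by
      rw [← pow_add, show m + i = m - i + 2 * i by omega, pow_add, pow_mul]; simp
    rw [e2]; ring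
  rw [Finset.sum_congr rfl e, ← Finset.mul_sum, he, mul_zero]

/-- An eventually constant top difference of a function growing like a binomial coefficient is
positive. -/
lemma one_le_top {n : ℕ} {h : ℕ → ℤ} {s0 : ℕ} {e : ℤ}
    (hc : ∀ s, s0 ≤ s → (Δ_[1])^[n] h s = e)
    (hl : ∃ β, ∀ t, ((t + n).choose n : ℤ) ≤ h (β + 2 * t)) : 1 ≤ e := by
  obtain ⟨β, hβ⟩ := hl
  rcases n with _ | k
  · have h1 := hβ s0
    simp at h1
    have h2 := hc (β + 2 * s0) (by omega)
    simp at h2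
    omega
  by_contra hcon
  obtain ⟨A, hA0, hA⟩ := le_pow_of_fwdDiff_nonpos k h s0 fun s hs => by rw [hc s hs]; omega
  set t : ℕ := ((k + 1).factorial * A.toNat * (β + 2) ^ k) with ht
  have h1 := hβ t
  have h2 := hA (β + 2 * t)
  have h3 : (t + 1) ^ (k + 1) ≤ (k + 1).factorial * (t + (k + 1)).choose (k + 1) := by
    rw [← Nat.ascFactorial_eq_factorial_mul_choose]
    exact Nat.pow_succ_le_ascFactorial (t + 1) (k + 1)
  have h4 : ((t + (k + 1)).choose (k + 1) : ℤ) ≤ A * (((β + 2) * (t + 1) : ℕ) : ℤ) ^ k := by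
    refine h1.trans (h2.trans (mul_le_mul_of_nonneg_left ?_ hA0))
    refine pow_le_pow_left₀ (by positivity) ?_ k
    push_cast
    have hb : (0 : ℤ) ≤ β := by positivity
    have hT : (0 : ℤ) ≤ t := by positivity
    nlinarith
  have h5 : (t + (k + 1)).choose (k + 1) ≤ A.toNat * ((β + 2) * (t + 1)) ^ k := by
    rw [← Int.toNat_of_nonneg hA0] at h4
    exact_mod_cast h4
  have h6 : (t + 1) * (t + 1) ^ k ≤ t * (t + 1) ^ k := by
    calc (t + 1) * (t + 1) ^ k = (t + 1) ^ (k + 1) := by rw [pow_succ, mul_comm]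
      _ ≤ (k + 1).factorial * (A.toNat * ((β + 2) * (t + 1)) ^ k) :=
        h3.trans (Nat.mul_le_mul_left _ h5)
      _ = t * (t + 1) ^ k := by rw [ht, mul_pow]; ring
  have h7 := Nat.le_of_mul_le_mul_right h6 (by positivity)
  omega

/-- No such splitting exists. -/
theorem no_split {m : ℕ} (hm : 0 < m) (h1 h2 : ℕ → ℤ) (p : ℕ)
    (hsum : ∀ s, h2 s + h1 (s + p) = ((s + m - 1).choose (m - 1) : ℤ))
    (hE1 : ∃ s0, ∀ s, s0 ≤ s →
      ∑ i ∈ Finset.range (m + 1), (-1 : ℤ) ^ i * (m.choose i) * h1 (s + i) = 0)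
    (hE2 : ∃ s0, ∀ s, s0 ≤ s →
      ∑ i ∈ Finset.range (m + 1), (-1 : ℤ) ^ i * (m.choose i) * h2 (s + i) = 0)
    (hl1 : ∃ β, ∀ t, ((t + m - 1).choose (m - 1) : ℤ) ≤ h1 (β + 2 * t))
    (hl2 : ∃ β, ∀ t, ((t + m - 1).choose (m - 1) : ℤ) ≤ h2 (β + 2 * t)) : False := by
  obtain ⟨n, rfl⟩ : ∃ n, m = n + 1 := ⟨m - 1, by omega⟩
  simp only [show ∀ a : ℕ, a + (n + 1) - 1 = a + n from fun a => by omega,
    Nat.add_sub_cancel] at hsum hl1 hl2
  have const : ∀ {h : ℕ → ℤ} {s0 : ℕ}, (∀ s, s0 ≤ s →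
      ∑ i ∈ Finset.range (n + 1 + 1), (-1 : ℤ) ^ i * ((n + 1).choose i) * h (s + i) = 0) →
      ∀ s, s0 ≤ s → (Δ_[1])^[n] h s = (Δ_[1])^[n] h s0 := by
    intro h s0 hE s hs
    obtain ⟨d, rfl⟩ := Nat.exists_eq_add_of_le hs
    clear hs
    induction d with
    | zero => simp
    | succ d ih =>
      have h0 := iter_eq_zero_of_alt (hE (s0 + d) (by omega))
      rw [Function.iterate_succ_apply', fwdDiff] at h0
      rw [← ih, show s0 + (d + 1) = s0 + d + 1 by omega]
      linarith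
  obtain ⟨a, ha⟩ := hE1
  obtain ⟨b, hb⟩ := hE2
  have e1 := one_le_top (const ha) hl1
  have e2 := one_le_top (const hb) hl2
  have hsum' : h2 + (fun s => h1 (s + p)) = fun s => (fun x : ℕ => (x.choose (n + 0) : ℤ)) (s + n) :=
    funext fun s => by simpa using hsum s
  have h3 := congrFun (congrArg ((Δ_[1])^[n]) hsum') (a + b)
  rw [fwdDiff_iter_add, Pi.add_apply, fwdDiff_iter_comp_add,
    fwdDiff_iter_comp_add (f := fun x : ℕ => (x.choose (n + 0) : ℤ)), fwdDiff_iter_choose,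
    const hb (a + b) (by omega), const ha (a + b + p) (by omega)] at h3
  simp at h3
  omega

end Vale.Agent.P200.Quad
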