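import Vale.Agent.P200.Quad.Domain
import Vale.Agent.P200.Quad.CI
import Vale.Agent.P200.Assemble

/-!
A division ring with anticommuting linear factorisations of the quadrics.
-/

namespace Vale.Agent.P200.Quad

open MvPolynomial Module
open scoped TensorProduct

universe u

variable {K : Type u} [Field K]

lemma exists_coeff {n : ℕ} {g : MvPolynomial (Fin n) K} (hg : g.IsHomogeneous 2) :
    ∃ a : Fin n → Fin n → K, g = ∑ i, ∑ j, a i j • (X i * X j : MvPolynomial (Fin n) K) := by
  have h : g ∈ Submodule.span K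
      (Set.range fun p : Fin n × Fin n => (X p.1 * X p.2 : MvPolynomial (Fin n) K)) := by
    have h2 : g ∈ homogeneousSubmodule (Fin n) K 2 := hg
    rw [← homogeneousSubmodule_one_pow, homogeneousSubmodule_one_eq_span_X, pow_two,
      Submodule.span_mul_span] at h2
    refine Submodule.span_mono ?_ h2
    rintro _ ⟨_, ⟨i, rfl⟩, _, ⟨j, rfl⟩, rfl⟩
    exact ⟨(i, j), rfl⟩
  obtain ⟨a, ha⟩ := (Submodule.mem_span_range_iff_exists_fun K).1 h
  exact ⟨fun i j => a (i, j), by rw [← ha, Fintype.sum_prod_type]⟩

lemma finrank_quoDeg {σ τ : Type*} [Fintype σ] [Fintype τ] (f : τ → MvPolynomial σ K)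
    (hcard : Fintype.card τ = Fintype.card σ) (hf : ∀ t, (f t).IsHomogeneous 2) (l : List τ)
    (hnd : l.Nodup) (hmem : ∀ t, t ∈ l) (hreg : RegList ⊥ (l.map f)) (i : ℕ) :
    finrank K (quoDeg f i) = (Fintype.card σ).choose i := by
  have h1 := finrank_degPart_quadrics f hcard hf l hnd hmem hreg i
  have h2 := finrank_map_add_ker (mkA f) (homogeneousSubmodule σ K i)
  have h3 : homogeneousSubmodule σ K i ⊓ LinearMap.ker (mkA f) =
      Vale.Agent.P200.degPart i (Ideal.span (Set.range f)) := by
    ext u
    simp [Vale.Agent.P200.degPart, mkA, LinearMap.mem_ker, Ideal.Quotient.eq_zero_iff_mem]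
  rw [h3] at h2
  change finrank K (quoDeg f i) + _ = _ at h2
  omega

variable {n : ℕ}

/-- The index of the variable `i` in the copy `k`. -/
abbrev idx (k i : Fin n) : Fin (n * n) := finProdFinEquiv (k, i)

/-- The coefficients of the `n` copies. -/
noncomputable def copyCoef (a : Fin n → Fin n → Fin n → K) :
    Fin (n * n) → Fin (n * n) → Fin (n * n) → K :=
  fun p I J => if (finProdFinEquiv.symm I).1 = (finProdFinEquiv.symm p).1 ∧
      (finProdFinEquiv.symm J).1 = (finProdFinEquiv.symm p).1 then
    a (finProdFinEquiv.symm p).2 (finProdFinEquiv.symm I).2 (finProdFinEquiv.symm J).2 else 0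

/-- The `n` copies of the quadrics. -/
noncomputable def copyForm (f : Fin n → MvPolynomial (Fin n) K) :
    Fin (n * n) → MvPolynomial (Fin (n * n)) K :=
  fun p => rename (idx (finProdFinEquiv.symm p).1) (f (finProdFinEquiv.symm p).2)

lemma copyForm_eq {f : Fin n → MvPolynomial (Fin n) K} {a : Fin n → Fin n → Fin n → K}
    (ha : ∀ l, f l = ∑ i, ∑ j, a l i j • (X i * X j : MvPolynomial (Fin n) K)) (p : Fin (n * n)) :
    copyForm f p = ∑ I, ∑ J, copyCoef a p I J • (X I * X J : MvPolynomial (Fin (n * n)) K) := by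
  obtain ⟨⟨k, l⟩, rfl⟩ := finProdFinEquiv.surjective p
  simp only [copyForm, copyCoef, Equiv.symm_apply_apply, ha l, map_sum, map_smul, map_mul, rename_X]
  symm
  rw [← Equiv.sum_comp finProdFinEquiv, Fintype.sum_prod_type, Finset.sum_eq_single k]
  · refine Finset.sum_congr rfl fun i _ => ?_
    rw [← Equiv.sum_comp finProdFinEquiv, Fintype.sum_prod_type, Finset.sum_eq_single k]
    · simp [idx]
    · intro b _ hb; simp [hb]
    · simp
  · intro b _ hb; simp [hb]
  · simp

lemma regList_copyForm {f : Fin n → MvPolynomial (Fin n) K} (hf : ∀ i, (f i).IsHomogeneous 2)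
    (hreg : RegList ⊥ (List.ofFn f)) :
    ∃ l : List (Fin (n * n)), l.Nodup ∧ (∀ p, p ∈ l) ∧ RegList ⊥ (l.map (copyForm f)) := by
  obtain ⟨l, hnd, hmem, hl⟩ := regList_copies n hf hreg
  refine ⟨l.map finProdFinEquiv, hnd.map finProdFinEquiv.injective, fun p => ?_, ?_⟩
  · exact List.mem_map.2 ⟨_, hmem (finProdFinEquiv.symm p), Equiv.apply_symm_apply _ _⟩
  · have h := regList_equiv (renameEquiv K (finProdFinEquiv (m := n) (n := n)).symm)
      ((l.map finProdFinEquiv).map (copyForm f)) ⊥ ?_
    · have hb : Ideal.comap (renameEquiv K (finProdFinEquiv (m := n) (n := n)).symm).toRingHom ⊥ =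
          ⊥ := Ideal.comap_bot_of_injective _ (renameEquiv K _).injective
      rwa [hb] at h
    · convert hl using 2
      rw [List.map_map, List.map_map]
      refine List.map_congr_left fun p _ => ?_
      obtain ⟨k, i⟩ := p
      simp only [Function.comp_apply, copyForm, Equiv.symm_apply_apply, renameEquiv_apply,
        rename_rename]
      congr 1
      ext x
      simp [idx]

variable {σ τ : Type} [Fintype σ] [LinearOrder σ] [Fintype τ]

/-- The field of the parameters. -/
abbrev Fr (K : Type u) [Field K] (τ : Type) : Type u := FractionRing (Par K τ)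

/-- The localised Clifford algebra. -/
abbrev DCl (c : τ → σ → σ → K) : Type u := Fr K τ ⊗[Par K τ] Cl c

/-- The map from the graded Clifford algebra. -/
noncomputable def toD (c : τ → σ → σ → K) : Cl c →ₐ[Par K τ] DCl c :=
  Algebra.TensorProduct.includeRight

/-- The basis of the localised algebra. -/
noncomputable def bD (c : τ → σ → σ → K) : Basis (Finset σ) (Fr K τ) (DCl c) :=
  Algebra.TensorProduct.basis (Fr K τ) (bR c)

lemma bD_apply (c : τ → σ → σ → K) (S : Finset σ) : bD c S = toD c (bR c S) := by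
  simp [bD, toD]

lemma toD_injective (c : τ → σ → σ → K) : Function.Injective (toD c) := by
  rw [injective_iff_map_eq_zero]
  intro r hr
  apply (bR c).repr.injective
  refine Finsupp.ext fun S => ?_
  have h := congrArg (fun z => (bD c).repr z S) hr
  simp only [bD, toD, Algebra.TensorProduct.includeRight_apply, Algebra.TensorProduct.basis_repr_tmul,
    map_zero, Finsupp.zero_apply, one_smul, Finsupp.mapRange_apply] at h
  rw [map_zero, Finsupp.zero_apply]
  exact (map_eq_zero_iff _ (IsFractionRing.injective (Par K τ) (Fr K τ))).1 h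

lemma exists_clear (c : τ → σ → σ → K) (y : DCl c) :
    ∃ s : Par K τ, s ≠ 0 ∧ ∃ r, s • y = toD c r := by
  induction y using TensorProduct.induction_on with
  | zero => exact ⟨1, one_ne_zero, 0, by simp⟩
  | tmul q r =>
    obtain ⟨⟨a, s⟩, hs⟩ := IsLocalization.surj (nonZeroDivisors (Par K τ)) q
    refine ⟨s, nonZeroDivisors.ne_zero s.2, a • r, ?_⟩
    simp only at hs
    rw [TensorProduct.smul_tmul', map_smul, Algebra.smul_def, mul_comm, hs]
    simp [toD, TensorProduct.smul_tmul', ← Algebra.algebraMap_eq_smul_one]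
  | add y z hy hz =>
    obtain ⟨s, hs, r, hr⟩ := hy
    obtain ⟨t, ht, w, hw⟩ := hz
    refine ⟨s * t, mul_ne_zero hs ht, t • r + s • w, ?_⟩
    rw [map_add, map_smul, map_smul, ← hr, ← hw, smul_add, smul_smul, smul_smul, mul_comm t s]

lemma noZeroDivisors_D {c : τ → σ → σ → K} [NoZeroDivisors (Cl c)] : NoZeroDivisors (DCl c) := by
  constructor
  intro x y hxy
  obtain ⟨s, hs, r, hr⟩ := exists_clear c x
  obtain ⟨t, ht, w, hw⟩ := exists_clear c y
  have hrw : r * w = 0 := by
    apply toD_injective c
    rw [map_mul, ← hr, ← hw, smul_mul_smul_comm, hxy, smul_zero, map_zero]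
  have key : ∀ (s : Par K τ) (z : DCl c), s ≠ 0 → s • z = 0 → z = 0 := by
    intro s z hs hz
    rw [← IsScalarTower.algebraMap_smul (Fr K τ) s z] at hz
    rw [← inv_smul_smul₀ ((map_ne_zero_iff (algebraMap (Par K τ) (Fr K τ))
      (IsFractionRing.injective (Par K τ) (Fr K τ))).2 hs) z, hz, smul_zero]
  rcases mul_eq_zero.1 hrw with h | h
  · exact Or.inl (key s x hs (by rw [hr, h, map_zero]))
  · exact Or.inr (key t y ht (by rw [hw, h, map_zero]))

end Vale.Agent.P200.Quad
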