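import Vale.Agent.P200.Quad.Exact
import Vale.Agent.P200.Quad.Count
import Vale.Agent.P200.Linalg

/-!
The graded Clifford algebra of a regular sequence of quadrics is a domain.
-/

namespace Vale.Agent.P200.Quad

open MvPolynomial Module
open scoped TensorProduct

variable {K : Type*} [Field K]

lemma finrank_homog_choose {σ : Type*} [Fintype σ] (hm : 0 < Fintype.card σ) (d : ℕ) :
    finrank K (homogeneousSubmodule σ K d) =
      (d + Fintype.card σ - 1).choose (Fintype.card σ - 1) := by
  classical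
  rw [finrank_homog]
  have e : {e : σ →₀ ℕ // e.degree = d} ≃ Sym σ d :=
    (Equiv.subtypeEquivRight fun e : σ →₀ ℕ => (by
      rw [Finsupp.degree_eq_sum, Finsupp.sum_fintype _ _ (fun _ => rfl)]
      rfl : e.degree = d ↔ (e.sum fun _ => id) = d)).trans (Sym.equivNatSum σ d).symm
  rw [Nat.card_congr e, Nat.card_eq_fintype_card, Sym.card_sym_eq_choose,
    show Fintype.card σ + d - 1 = d + Fintype.card σ - 1 by omega]
  have := Nat.choose_symm (show d ≤ d + Fintype.card σ - 1 by omega)
  rw [show d + Fintype.card σ - 1 - d = Fintype.card σ - 1 by omega] at this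
  exact this.symm

lemma alternating_sum_eq_zero {W : Type*} [AddCommGroup W] [Module K W] (ρ : W →ₗ[K] W)
    (C : ℕ → Submodule K W) [∀ i, FiniteDimensional K (C i)] (n : ℕ)
    (hmap : ∀ i, ∀ x ∈ C i, ρ x ∈ C (i + 1)) (hsq : ∀ x, ρ (ρ x) = 0)
    (h0 : ∀ x ∈ C 0, ρ x = 0 → x = 0)
    (hex : ∀ i, i ≤ n → ∀ x ∈ C (i + 1), ρ x = 0 → x ∈ (C i).map ρ)
    (hlast : C (n + 1) = ⊥) :
    ∑ i ∈ Finset.range (n + 1), (-1 : ℤ) ^ i * (finrank K (C i) : ℤ) = 0 := by
  set Z : ℕ → ℤ := fun i => (finrank K ↥(C i ⊓ LinearMap.ker ρ) : ℤ)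
  have hstep : ∀ i, i ≤ n → (finrank K (C i) : ℤ) = Z i + Z (i + 1) := by
    intro i hi
    have h := finrank_map_add_ker ρ (C i)
    have he : (C i).map ρ = C (i + 1) ⊓ LinearMap.ker ρ := by
      refine le_antisymm ?_ fun x hx => hex i hi x hx.1 hx.2
      rintro _ ⟨x, hx, rfl⟩
      exact ⟨hmap i x hx, hsq x⟩
    rw [he] at h
    simp only [Z]
    omega
  have hsum : ∀ k, k ≤ n + 1 →
      ∑ i ∈ Finset.range k, (-1 : ℤ) ^ i * (finrank K (C i) : ℤ) = Z 0 - (-1) ^ k * Z k := by
    intro k
    induction k with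
    | zero => simp
    | succ k ih =>
      intro hk
      rw [Finset.sum_range_succ, ih (by omega), hstep k (by omega)]
      ring
  rw [hsum (n + 1) le_rfl]
  have e0 : C 0 ⊓ LinearMap.ker ρ = ⊥ :=
    (Submodule.eq_bot_iff _).2 fun x hx => h0 x hx.1 hx.2
  have e1 : C (n + 1) ⊓ LinearMap.ker ρ = ⊥ := by rw [hlast, bot_inf_eq]
  simp only [Z]
  rw [e0, e1, finrank_bot]
  simp

variable {σ τ : Type*} [Fintype σ] [LinearOrder σ] [Fintype τ]
variable {c : τ → σ → σ → K} (f : τ → MvPolynomial σ K) (F : Fam c) (ψ : σ ≃ τ)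

include ψ in
lemma finrank_MA (d i : ℕ) : finrank K (MA f F d i) = finrank K (F.M d) * finrank K (quoDeg f i) := by
  have := finite_M F ψ d
  have := finite_quoDeg f i
  have hinj : Function.Injective (TensorProduct.map (F.M d).subtype (quoDeg f i).subtype) :=
    TensorProduct.map_injective_of_flat_flat _ _ (F.M d).subtype_injective
      (quoDeg f i).subtype_injective
  have hrange : MA f F d i =
      LinearMap.range (TensorProduct.map (F.M d).subtype (quoDeg f i).subtype) := by
    rw [← Submodule.map_top, ← TensorProduct.span_tmul_eq_top, Submodule.map_span, MA]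
    congr 1
    ext y
    constructor
    · rintro ⟨x, hx, a, ha, rfl⟩; exact ⟨_, ⟨⟨x, hx⟩, ⟨a, ha⟩, rfl⟩, rfl⟩
    · rintro ⟨_, ⟨⟨x, hx⟩, ⟨a, ha⟩, rfl⟩, rfl⟩; exact ⟨x, hx, a, ha, rfl⟩
  rw [hrange, LinearMap.finrank_range_of_inj hinj, Module.finrank_tensorProduct]

variable (hf : ∀ l, (f l).IsHomogeneous 2)
  (hsyz : ∀ w : τ → MvPolynomial σ K, ∑ l, f l * w l = 0 →
    ∀ l, w l ∈ Ideal.span (Set.range f))
  (hc : ∀ l, f l = ∑ i, ∑ j, c l i j • (X i * X j : MvPolynomial σ K))
  (hA : ∀ i, finrank K (quoDeg f i) = (Fintype.card σ).choose i)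

include ψ hf hsyz hc hA in
lemma eventually_alternating : ∃ s₀, ∀ s, s₀ ≤ s →
    ∑ i ∈ Finset.range (Fintype.card σ + 1),
      (-1 : ℤ) ^ i * ((Fintype.card σ).choose i) * (finrank K (F.M (s + i)) : ℤ) = 0 := by
  set m := Fintype.card σ
  choose d₀ hd₀ using eventually_exact f F ψ hf hsyz hc
  refine ⟨(Finset.range (m + 2)).sup d₀ + 1, fun s hs => ?_⟩
  let C : ℕ → Submodule K (Cl c ⊗[K] Quo f) := fun i => MA f F (s + i) i
  have hbig : ∀ i, i ≤ m + 1 → d₀ i < s + i := fun i hi => by
    have := Finset.le_sup (f := d₀) (Finset.mem_range.2 (show i < m + 2 by omega))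
    omega
  have hfin : ∀ i, FiniteDimensional K (C i) := fun i => by
    have := finite_M F ψ (s + i)
    have := finite_quoDeg f i
    rw [show C i = MA f F (s + i) i from rfl, MA]
    refine Submodule.finiteDimensional_of_le
      (S₂ := LinearMap.range (TensorProduct.map (F.M (s + i)).subtype (quoDeg f i).subtype)) ?_
    rw [Submodule.span_le]
    rintro _ ⟨x, hx, a, ha, rfl⟩
    exact ⟨⟨x, hx⟩ ⊗ₜ ⟨a, ha⟩, rfl⟩
  have hlast : C (m + 1) = ⊥ := by
    have := hfin (m + 1)
    rw [← Submodule.finrank_eq_zero, finrank_MA f F ψ, hA, Nat.choose_succ_self, mul_zero]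
  have h := alternating_sum_eq_zero ((rhoA c f).restrictScalars K) C m
    (fun i x hx => by
      have := rhoA_MA f F hx
      rwa [Nat.add_assoc] at this)
    (rhoA_rhoA c f hc)
    (fun x hx h0 => by
      simpa [bdry] using hd₀ 0 (s + 0) (hbig 0 (by omega)) x hx h0)
    (fun i hi x hx h0 => by
      have := hd₀ (i + 1) (s + (i + 1)) (hbig (i + 1) (by omega)) x hx h0
      rw [bdry, show s + (i + 1) - 1 = s + i by omega] at this
      exact this) hlast
  rw [← h]
  refine Finset.sum_congr rfl fun i _ => ?_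
  rw [show C i = MA f F (s + i) i from rfl, finrank_MA f F ψ, hA]
  push_cast
  ring

lemma monomial_mem_M : ∀ (k : ℕ) (β : τ →₀ ℕ), β.degree = k → ∀ (a : K) {d : ℕ} {x : Cl c},
    x ∈ F.M d → (monomial β a : Par K τ) • x ∈ F.M (d + 2 * k) := by
  intro k
  induction k with
  | zero =>
    intro β hβ a d x hx
    obtain rfl : β = 0 := (Finsupp.degree_eq_zero_iff β).1 hβ
    rw [monomial_zero', C_eq_smul_one, smul_assoc, one_smul, mul_zero, add_zero]
    exact Submodule.smul_mem _ _ hx
  | succ k ih =>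
    intro β hβ a d x hx
    obtain ⟨l, hl⟩ : ∃ l, β l ≠ 0 := by
      by_contra h
      push Not at h
      rw [show β = 0 from Finsupp.ext h, map_zero] at hβ
      omega
    set β' := β - Finsupp.single l 1
    have hb : β = Finsupp.single l 1 + β' :=
      (add_tsub_cancel_of_le (Finsupp.single_le_iff.2 (by omega))).symm
    rw [hb, map_add, Finsupp.degree_single] at hβ
    rw [hb, monomial_single_add, pow_one, mul_smul,
      show d + 2 * (k + 1) = d + 2 * k + 2 by omega]
    exact F.par _ l _ (ih β' (by omega) a hx)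

include ψ in
lemma lower_bound (hm : 0 < Fintype.card σ) {β : ℕ} {x : Cl c} (hx : x ∈ F.M β) (hx0 : x ≠ 0)
    (t : ℕ) : ((t + Fintype.card σ - 1).choose (Fintype.card σ - 1) : ℤ) ≤
      (finrank K (F.M (β + 2 * t)) : ℤ) := by
  have := finite_M F ψ (β + 2 * t)
  let g : homogeneousSubmodule τ K t →ₗ[K] Cl c :=
    ((LinearMap.toSpanSingleton (Par K τ) (Cl c) x).restrictScalars K).comp
      (homogeneousSubmodule τ K t).subtype
  have hinj : Function.Injective g := by
    intro p q hpq
    have : Module.Free (Par K τ) (Cl c) := Module.Free.of_basis (bR c)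
    have h : ((p : Par K τ) - q) • x = 0 := by
      rw [sub_smul]; exact sub_eq_zero.2 hpq
    exact Subtype.ext (sub_eq_zero.1 ((smul_eq_zero.1 h).resolve_right hx0))
  have hmem : ∀ p, g p ∈ F.M (β + 2 * t) := by
    rintro ⟨p, hp⟩
    show p • x ∈ _
    rw [p.as_sum, Finset.sum_smul]
    refine sum_mem fun e he => monomial_mem_M F t e ?_ _ hx
    have := hp (MvPolynomial.mem_support_iff.1 he)
    rw [Finsupp.degree_eq_weight_one]
    exact this
  have hle := LinearMap.finrank_le_finrank_of_injective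
    (f := g.codRestrict _ hmem) (fun p q h => hinj (congrArg Subtype.val h))
  have hcard : Fintype.card τ = Fintype.card σ := (Fintype.card_congr ψ).symm
  rw [finrank_homog_choose (hcard ▸ hm), hcard] at hle
  exact_mod_cast hle

/-- The image of left multiplication by a homogeneous element. -/
noncomputable def imageFam (a : Cl c) {p : ℕ} (ha : a ∈ deg c p) : Fam c where
  M d := if p ≤ d then (deg c (d - p)).map (LinearMap.mulLeft K a) else ⊥
  le d := by
    split_ifs with h
    · rintro _ ⟨y, hy, rfl⟩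
      have := mul_mem_deg c ha hy
      rwa [show p + (d - p) = d by omega] at this
    · exact bot_le
  gen d i x hx := by
    split_ifs at hx with h
    · rw [if_pos (by omega)]
      obtain ⟨y, hy, rfl⟩ := hx
      refine ⟨y * gen c i, ?_, (mul_assoc a y _).symm⟩
      rw [show d + 1 - p = d - p + 1 by omega]
      exact mul_mem_deg c hy (gen_mem_deg c i)
    · simp [(Submodule.mem_bot K).1 hx]
  par d l x hx := by
    split_ifs at hx with h
    · rw [if_pos (by omega)]
      obtain ⟨y, hy, rfl⟩ := hx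
      refine ⟨(X l : Par K τ) • y, ?_, mul_smul_comm _ _ _⟩
      rw [show d + 2 - p = d - p + 2 by omega]
      exact X_smul_deg c l hy
    · simp [(Submodule.mem_bot K).1 hx]

/-- The kernel of left multiplication. -/
noncomputable def kerFam (c : τ → σ → σ → K) (a : Cl c) : Fam c where
  M d := deg c d ⊓ LinearMap.ker (LinearMap.mulLeft K a)
  le _ := inf_le_left
  gen d i x hx := ⟨mul_mem_deg c hx.1 (gen_mem_deg c i), by
    have h : a * x = 0 := hx.2
    show a * (x * gen c i) = 0
    rw [← mul_assoc, h, zero_mul]⟩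
  par d l x hx := ⟨X_smul_deg c l hx.1, by
    have h : a * x = 0 := hx.2
    show a * ((X l : Par K τ) • x) = 0
    rw [mul_smul_comm, h, smul_zero]⟩

include ψ hf hsyz hc hA in
/-- The graded Clifford algebra of a regular sequence of quadrics has no zero divisors. -/
theorem noZeroDivisors (hm : 0 < Fintype.card σ) : NoZeroDivisors (Cl c) := by
  constructor
  intro x y hxy
  by_contra hne
  push Not at hne
  obtain ⟨p, hp0, hp⟩ := exists_top c hne.1
  obtain ⟨q, hq0, hq⟩ := exists_top c hne.2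
  have hab : proj c p x * proj c q y = 0 := by
    rw [← proj_top_mul c hp hq, hxy, map_zero]
  set a := proj c p x
  have ha : a ∈ deg c p := proj_mem c p x
  set m := Fintype.card σ
  obtain ⟨s₁, h₁⟩ := eventually_alternating f (imageFam a ha) ψ hf hsyz hc hA
  obtain ⟨s₂, h₂⟩ := eventually_alternating f (kerFam c a) ψ hf hsyz hc hA
  refine no_split hm (fun d => (finrank K ((imageFam a ha).M d) : ℤ))
    (fun d => (finrank K ((kerFam c a).M d) : ℤ)) p (fun s => ?_) ⟨s₁, h₁⟩ ⟨s₂, h₂⟩
    ⟨p, lower_bound (imageFam a ha) ψ hm (x := a) ?_ hp0⟩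
    ⟨q, lower_bound (kerFam c a) ψ hm (x := proj c q y) ⟨proj_mem c q y, hab⟩ hq0⟩
  · have := finite_deg c ψ s
    have h := finrank_map_add_ker (LinearMap.mulLeft K a) (deg c s)
    rw [finrank_deg c ψ, finrank_homog_choose hm] at h
    have e1 : (imageFam a ha).M (s + p) = (deg c s).map (LinearMap.mulLeft K a) := by
      show (if p ≤ s + p then _ else _) = _
      rw [if_pos (by omega), Nat.add_sub_cancel]
    have e2 : (kerFam c a).M s = deg c s ⊓ LinearMap.ker (LinearMap.mulLeft K a) := rfl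
    rw [e2, e1]
    rw [← h]
    push_cast
    ring
  · simp only [imageFam, if_pos le_rfl, Nat.sub_self]
    exact ⟨1, one_mem_deg c, mul_one a⟩

end Vale.Agent.P200.Quad
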