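import Vale.Agent.P200.Quad.Euler
import Vale.Agent.P200.Basic

/-!
Eventual exactness of the linear factorisation on a graded module.
-/

namespace Vale.Agent.P200.Quad

open MvPolynomial Module
open scoped TensorProduct

variable {K : Type*} [Field K] {σ τ : Type*} [Fintype σ] [LinearOrder σ] [Fintype τ]
variable (c : τ → σ → σ → K) (f : τ → MvPolynomial σ K)

/-- A family of graded pieces of a module. -/
structure Fam where
  /-- The pieces. -/
  M : ℕ → Submodule K (Cl c)
  le : ∀ d, M d ≤ deg c d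
  gen : ∀ d i, ∀ x ∈ M d, x * gen c i ∈ M (d + 1)
  par : ∀ d l, ∀ x ∈ M d, (X l : Par K τ) • x ∈ M (d + 2)

variable {c} (F : Fam c)

/-- Tensors over the polynomial ring. -/
noncomputable def MT (d i : ℕ) : Submodule K (Cl c ⊗[K] MvPolynomial σ K) :=
  Submodule.span K (Set.image2 (· ⊗ₜ[K] ·) (F.M d : Set (Cl c))
    (homogeneousSubmodule σ K i : Set (MvPolynomial σ K)))

/-- Tensors over the quotient. -/
noncomputable def MA (d i : ℕ) : Submodule K (Cl c ⊗[K] Quo f) :=
  Submodule.span K (Set.image2 (· ⊗ₜ[K] ·) (F.M d : Set (Cl c)) (quoDeg f i : Set (Quo f)))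

/-- Boundaries. -/
noncomputable def bdry : ℕ → ℕ → Submodule K (Cl c ⊗[K] Quo f)
  | d, i + 1 => (MA f F (d - 1) i).map ((rhoA c f).restrictScalars K)
  | _, 0 => ⊥

lemma map_mkT (d i : ℕ) :
    (MT F d i).map ((mkT c f).restrictScalars K) = MA f F d i := by
  rw [MT, MA, Submodule.map_span]
  congr 1
  ext y
  simp only [Set.mem_image, Set.mem_image2, quoDeg, SetLike.mem_coe, Submodule.mem_map,
    LinearMap.coe_restrictScalars]
  constructor
  · rintro ⟨_, ⟨x, hx, u, hu, rfl⟩, rfl⟩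
    exact ⟨x, hx, _, ⟨u, hu, rfl⟩, rfl⟩
  · rintro ⟨x, hx, _, ⟨u, hu, rfl⟩, rfl⟩
    exact ⟨_, ⟨x, hx, u, hu, rfl⟩, rfl⟩

lemma mkA_X_mul_mem {i : ℕ} (v : σ) {a : Quo f} (ha : a ∈ quoDeg f i) :
    mkA f (X v) * a ∈ quoDeg f (i + 1) := by
  obtain ⟨u, hu, rfl⟩ := ha
  refine ⟨X v * u, ?_, map_mul (Ideal.Quotient.mkₐ K (Ideal.span (Set.range f))) _ _⟩
  rw [add_comm]
  exact (isHomogeneous_X K v).mul hu

lemma rhoA_MA {d i : ℕ} {y : Cl c ⊗[K] Quo f} (hy : y ∈ MA f F d i) :
    rhoA c f y ∈ MA f F (d + 1) (i + 1) := by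
  induction hy using Submodule.span_induction with
  | mem z hz =>
    obtain ⟨x, hx, a, ha, rfl⟩ := hz
    rw [rhoA_tmul]
    exact sum_mem fun v _ => Submodule.subset_span
      ⟨_, F.gen d v x hx, _, mkA_X_mul_mem f v ha, rfl⟩
  | zero => simp
  | add a b _ _ ha hb => rw [map_add]; exact add_mem ha hb
  | smul k a _ ha =>
    have : rhoA c f (k • a) = k • rhoA c f a := ((rhoA c f).restrictScalars K).map_smul k a
    rw [this]; exact Submodule.smul_mem _ _ ha

lemma rhoT_MT {d i : ℕ} {y : Cl c ⊗[K] MvPolynomial σ K} (hy : y ∈ MT F d i) :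
    rhoT c y ∈ MT F (d + 1) (i + 1) := by
  induction hy using Submodule.span_induction with
  | mem z hz =>
    obtain ⟨x, hx, a, ha, rfl⟩ := hz
    rw [rhoT_tmul]
    refine sum_mem fun v _ => Submodule.subset_span ⟨_, F.gen d v x hx, _, ?_, rfl⟩
    show (X v * a).IsHomogeneous (i + 1)
    rw [add_comm]
    exact (isHomogeneous_X K v).mul ha
  | zero => simp
  | add a b _ _ ha hb => rw [map_add]; exact add_mem ha hb
  | smul k a _ ha =>
    have : rhoT c (k • a) = k • rhoT c a := ((rhoT c).restrictScalars K).map_smul k a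
    rw [this]; exact Submodule.smul_mem _ _ ha

lemma par_MA {d i : ℕ} (l : τ) {y : Cl c ⊗[K] Quo f} (hy : y ∈ MA f F d i) :
    (X l : Par K τ) • y ∈ MA f F (d + 2) i := by
  induction hy using Submodule.span_induction with
  | mem z hz =>
    obtain ⟨x, hx, a, ha, rfl⟩ := hz
    rw [TensorProduct.smul_tmul']
    exact Submodule.subset_span ⟨_, F.par d l x hx, _, ha, rfl⟩
  | zero => simp
  | add a b _ _ ha hb => rw [smul_add]; exact add_mem ha hb
  | smul k a _ ha => rw [smul_comm]; exact Submodule.smul_mem _ _ ha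

lemma MT_repr {d i : ℕ} {n : ℕ} (b : Basis (Fin n) K (F.M d)) {y : Cl c ⊗[K] MvPolynomial σ K}
    (hy : y ∈ MT F d i) : ∃ u : Fin n → MvPolynomial σ K,
      (∀ k, (u k).IsHomogeneous i) ∧ y = ∑ k, (b k : Cl c) ⊗ₜ u k := by
  induction hy using Submodule.span_induction with
  | mem z hz =>
    obtain ⟨x, hx, a, ha, rfl⟩ := hz
    refine ⟨fun k => b.repr ⟨x, hx⟩ k • a,
      fun k => Submodule.smul_mem (homogeneousSubmodule σ K i) _ ha, ?_⟩
    have := congrArg Subtype.val (b.sum_repr ⟨x, hx⟩)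
    simp only [Submodule.coe_sum, Submodule.coe_smul] at this
    simp only
    conv_lhs => rw [← this]
    rw [TensorProduct.sum_tmul]
    exact Finset.sum_congr rfl fun k _ => TensorProduct.smul_tmul _ _ _
  | zero => exact ⟨0, fun k => isHomogeneous_zero _ _ _, by simp⟩
  | add a a' _ _ ha ha' =>
    obtain ⟨u, hu, rfl⟩ := ha
    obtain ⟨u', hu', rfl⟩ := ha'
    exact ⟨u + u', fun k => (hu k).add (hu' k), by
      simp [TensorProduct.tmul_add, Finset.sum_add_distrib]⟩
  | smul t a _ ha =>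
    obtain ⟨u, hu, rfl⟩ := ha
    exact ⟨t • u, fun k => Submodule.smul_mem (homogeneousSubmodule σ K i) _ (hu k), by
      simp [Finset.smul_sum, TensorProduct.tmul_smul]⟩

variable (ψ : σ ≃ τ) (hf : ∀ l, (f l).IsHomogeneous 2)

include ψ in
lemma finite_M (d : ℕ) : Module.Finite K (F.M d) := by
  have := finite_deg c ψ d
  exact Submodule.finiteDimensional_of_le (F.le d)

include ψ hf in
lemma exists_of_mkT_eq_zero {d i : ℕ} {y : Cl c ⊗[K] MvPolynomial σ K} (hy : y ∈ MT F d i)
    (h0 : mkT c f y = 0) : ∃ v : τ → Cl c ⊗[K] MvPolynomial σ K,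
      (∀ l, v l ∈ if 2 ≤ i then MT F d (i - 2) else ⊥) ∧ y = ∑ l, fT c f l (v l) := by
  classical
  have := finite_M F ψ d
  let b := Module.finBasis K (F.M d)
  obtain ⟨u, hu, rfl⟩ := MT_repr F b hy
  have hli : LinearIndependent K (fun k => (b k : Cl c)) :=
    b.linearIndependent.map' (F.M d).subtype (Submodule.ker_subtype _)
  simp only [map_sum, mkT_tmul] at h0
  have hz := eq_zero_of_sum_tmul hli h0
  have : ∀ k, ∃ w : τ → MvPolynomial σ K,
      (∀ l, (w l).IsHomogeneous (i - 2) ∧ (¬ 2 ≤ i → w l = 0)) ∧ u k = ∑ l, f l * w l := by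
    intro k
    have hmem : u k ∈ Ideal.span (Set.range f) := Ideal.Quotient.eq_zero_iff_mem.1 (hz k)
    obtain ⟨w, hw⟩ := (Ideal.mem_span_range_iff_exists_fun).1 hmem
    refine ⟨fun l => if 2 ≤ i then homogeneousComponent (i - 2) (w l) else 0, fun l => ?_, ?_⟩
    · refine ⟨?_, fun h => if_neg h⟩
      show MvPolynomial.IsHomogeneous (if 2 ≤ i then homogeneousComponent (i - 2) (w l) else 0) (i - 2)
      split_ifs
      · exact homogeneousComponent_isHomogeneous _ _
      · exact isHomogeneous_zero _ _ _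
    · rw [← homogeneousComponent_eq_self (hu k), ← hw, map_sum]
      refine Finset.sum_congr rfl fun l _ => ?_
      rw [mul_comm, homogeneousComponent_mul_left (hf l)]
      split_ifs <;> simp
  choose w hw hwu using this
  refine ⟨fun l => ∑ k, (b k : Cl c) ⊗ₜ w k l, fun l => ?_, ?_⟩
  · refine sum_mem fun k _ => ?_
    split_ifs with h
    · exact Submodule.subset_span ⟨_, (b k).2, _, (hw k l).1, rfl⟩
    · rw [(hw k l).2 h, TensorProduct.tmul_zero]; exact zero_mem _
  · simp only [map_sum]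
    rw [Finset.sum_comm]
    refine Finset.sum_congr rfl fun k _ => ?_
    rw [hwu k, TensorProduct.tmul_sum]
    rfl

variable (hsyz : ∀ w : τ → MvPolynomial σ K, ∑ l, f l * w l = 0 →
  ∀ l, w l ∈ Ideal.span (Set.range f))

include hsyz in
lemma mkT_eq_zero_of_syzygy (v : τ → Cl c ⊗[K] MvPolynomial σ K)
    (h : ∑ l, fT c f l (v l) = 0) (l : τ) : mkT c f (v l) = 0 := by
  refine eq_zero_of_evalT (bK c) fun p => ?_
  have he : ∀ (l : τ) (z : Cl c ⊗[K] MvPolynomial σ K),
      evalT ((bK c).coord p) (fT c f l z) = f l * evalT ((bK c).coord p) z := by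
    intro l z
    induction z using TensorProduct.induction_on with
    | zero => simp
    | tmul x u => simp [fT, evalT_tmul, mul_smul_comm]
    | add a b ha hb => simp [ha, hb, mul_add]
  have hm : ∀ z : Cl c ⊗[K] MvPolynomial σ K,
      evalT ((bK c).coord p) (mkT c f z) = mkA f (evalT ((bK c).coord p) z) := by
    intro z
    induction z using TensorProduct.induction_on with
    | zero => simp
    | tmul x u => simp [mkT_tmul, evalT_tmul]
    | add a b ha hb => simp [ha, hb]
  have h' := congrArg (evalT ((bK c).coord p)) h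
  simp only [map_sum, he, map_zero] at h'
  rw [hm]
  exact Ideal.Quotient.eq_zero_iff_mem.2 (hsyz _ h' l)

variable (hc : ∀ l, f l = ∑ i, ∑ j, c l i j • (X i * X j : MvPolynomial σ K))

include ψ hf hsyz hc in
lemma par_cycle {d i : ℕ} (l : τ) {y : Cl c ⊗[K] Quo f} (hy : y ∈ MA f F d i)
    (h0 : rhoA c f y = 0) : (X l : Par K τ) • y ∈ bdry f F (d + 2) i := by
  rw [← map_mkT] at hy
  obtain ⟨z, hz, rfl⟩ := hy
  simp only [LinearMap.coe_restrictScalars] at h0 ⊢
  rw [← mkT_rhoT] at h0
  obtain ⟨v, hv, he⟩ := exists_of_mkT_eq_zero f F ψ hf (rhoT_MT F hz) h0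
  have h2 : ∑ k, fT c f k (rhoT c (v k) - (X k : Par K τ) • z) = 0 := by
    simp only [map_sub, Finset.sum_sub_distrib, map_smul, ← rhoT_fT, ← map_sum, ← he,
      rhoT_rhoT c f hc, sub_self]
  have h3 := mkT_eq_zero_of_syzygy f hsyz _ h2 l
  rw [map_sub, map_smul, mkT_rhoT, sub_eq_zero] at h3
  rw [← h3]
  rcases i with - | i
  · simp only [show ¬ 2 ≤ 0 + 1 by omega, if_false, Submodule.mem_bot] at hv
    simp [hv l, bdry]
  · have hl := hv l
    rw [if_pos (by omega), show i + 1 + 1 - 2 = i by omega] at hl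
    refine ⟨mkT c f (v l), ?_, rfl⟩
    rw [show d + 2 - 1 = d + 1 by omega, ← map_mkT]
    exact ⟨_, hl, rfl⟩

/-- The projection to weight `d` after tensoring. -/
noncomputable def projA (d : ℕ) : Cl c ⊗[K] Quo f →ₗ[K] Cl c ⊗[K] Quo f :=
  (proj c d).rTensor (Quo f)

lemma projA_monomial_smul {d d' i : ℕ} {y : Cl c ⊗[K] Quo f} (hy : y ∈ MA f F d' i)
    (β : τ →₀ ℕ) (a : K) : projA f d ((monomial β a : Par K τ) • y) =
      if d' + 2 * β.degree = d then (monomial β a : Par K τ) • y else 0 := by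
  induction hy using Submodule.span_induction with
  | mem z hz =>
    obtain ⟨x, hx, q, -, rfl⟩ := hz
    rw [TensorProduct.smul_tmul', projA, LinearMap.rTensor_tmul,
      proj_monomial_smul c (F.le d' hx)]
    split_ifs <;> simp
  | zero => simp
  | add u v _ _ hu hv => rw [smul_add, map_add, hu, hv]; split_ifs <;> simp
  | smul k u _ hu =>
    rw [smul_comm, map_smul, hu]
    split_ifs <;> simp

lemma projA_self {d i : ℕ} {y : Cl c ⊗[K] Quo f} (hy : y ∈ MA f F d i) : projA f d y = y := by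
  simpa using projA_monomial_smul f F (d := d) hy 0 1

lemma monomial_MA {d i : ℕ} {y : Cl c ⊗[K] Quo f} (hy : y ∈ MA f F d i) :
    ∀ (k : ℕ) (β : τ →₀ ℕ), β.degree = k → ∀ a : K,
      (monomial β a : Par K τ) • y ∈ MA f F (d + 2 * k) i := by
  intro k
  induction k with
  | zero =>
    intro β hβ a
    obtain rfl : β = 0 := (Finsupp.degree_eq_zero_iff β).1 hβ
    rw [monomial_zero', C_eq_smul_one, smul_assoc, one_smul, mul_zero, add_zero]
    exact Submodule.smul_mem _ _ hy
  | succ k ih =>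
    intro β hβ a
    obtain ⟨l, hl⟩ : ∃ l, β l ≠ 0 := by
      by_contra h
      push Not at h
      rw [show β = 0 from Finsupp.ext h, map_zero] at hβ
      omega
    set β' := β - Finsupp.single l 1
    have hb : β = Finsupp.single l 1 + β' :=
      (add_tsub_cancel_of_le (Finsupp.single_le_iff.2 (by omega))).symm
    rw [hb, map_add, Finsupp.degree_single] at hβ
    rw [hb, monomial_single_add, pow_one, mul_smul,
      show d + 2 * (k + 1) = d + 2 * k + 2 by omega]
    exact par_MA f F l (ih β' (by omega) a)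

lemma finite_quoDeg (i : ℕ) : Module.Finite K (quoDeg f i) :=
  Module.Finite.map _ _

lemma exists_amb (c : τ → σ → σ → K) (f : τ → MvPolynomial σ K) (i : ℕ) :
    ∃ A : Submodule (Par K τ) (Cl c ⊗[K] Quo f), A.FG ∧
      ∀ (F : Fam c) (d : ℕ) (y : Cl c ⊗[K] Quo f), y ∈ MA f F d i → y ∈ A := by
  obtain ⟨t, ht⟩ := Module.Finite.iff_fg.1 (finite_quoDeg f i)
  refine ⟨Submodule.span (Par K τ) (Set.image2 (· ⊗ₜ[K] ·) (Set.range (bR c)) (t : Set (Quo f))),
    Submodule.fg_span ((Set.finite_range (bR c)).image2 _ t.finite_toSet), fun F d y hy => ?_⟩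
  induction hy using Submodule.span_induction with
  | mem z hz =>
    obtain ⟨x, -, a, ha, rfl⟩ := hz
    rw [← ht] at ha
    induction ha using Submodule.span_induction with
    | mem a ha =>
      show x ⊗ₜ[K] a ∈ _
      conv => arg 2; rw [← (bR c).sum_repr x]
      rw [TensorProduct.sum_tmul]
      refine sum_mem fun S _ => ?_
      rw [← TensorProduct.smul_tmul']
      exact Submodule.smul_mem _ _ (Submodule.subset_span ⟨_, ⟨S, rfl⟩, _, ha, rfl⟩)
    | zero => simp
    | add a b _ _ ha hb =>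
      show x ⊗ₜ[K] (a + b) ∈ _
      rw [TensorProduct.tmul_add]; exact add_mem ha hb
    | smul k a _ ha =>
      show x ⊗ₜ[K] (k • a) ∈ _
      rw [TensorProduct.tmul_smul]; exact Submodule.smul_of_tower_mem _ _ ha
  | zero => simp
  | add a b _ _ ha hb => exact add_mem ha hb
  | smul k a _ ha => exact Submodule.smul_of_tower_mem _ _ ha

include ψ hf hsyz hc in
lemma eventually_exact (i : ℕ) : ∃ d₀, ∀ d, d₀ < d → ∀ y ∈ MA f F d i,
    rhoA c f y = 0 → y ∈ bdry f F d i := by
  classical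
  obtain ⟨A, hfg, hA⟩ := exists_amb c f i
  let N : Set (Cl c ⊗[K] Quo f) := {y | ∃ d, y ∈ MA f F d i ∧ rhoA c f y = 0}
  have hnoeth : IsNoetherian (Par K τ) A := isNoetherian_of_fg_of_noetherian _ hfg
  have hle : Submodule.span (Par K τ) N ≤ A :=
    Submodule.span_le.2 fun y ⟨d, hy, _⟩ => hA F d y hy
  have hN : (Submodule.span (Par K τ) N).FG := by
    have : IsNoetherian (Par K τ) (Submodule.span (Par K τ) N) := isNoetherian_of_le hle
    exact (Submodule.fg_top _).1 (IsNoetherian.noetherian ⊤)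
  obtain ⟨t, htN, ht⟩ := (Submodule.fg_span_iff_fg_span_finset_subset N).1 hN
  choose δ hδ using fun y : t => htN y.2
  refine ⟨Finset.univ.sup δ, fun d hd y hy h0 => ?_⟩
  have hyt : y ∈ Submodule.span (Par K τ) (Set.range fun y : t => (y : Cl c ⊗[K] Quo f)) := by
    have h1 : y ∈ Submodule.span (Par K τ) N := Submodule.subset_span ⟨d, hy, h0⟩
    rw [ht] at h1
    refine Submodule.span_mono ?_ h1
    intro z hz
    exact ⟨⟨z, hz⟩, rfl⟩
  obtain ⟨p, hp⟩ := (Submodule.mem_span_range_iff_exists_fun _).1 hyt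
  rw [← projA_self f F hy, ← hp, map_sum]
  refine sum_mem fun z _ => ?_
  rw [show (p z : Par K τ) • (z : Cl c ⊗[K] Quo f) =
    ∑ β ∈ (p z).support, (monomial β ((p z).coeff β) : Par K τ) • (z : Cl c ⊗[K] Quo f) by
    rw [← Finset.sum_smul, ← MvPolynomial.as_sum], map_sum]
  refine sum_mem fun β _ => ?_
  rw [projA_monomial_smul f F (hδ z).1]
  split_ifs with h
  · obtain ⟨l, hl⟩ : ∃ l, β l ≠ 0 := by
      by_contra hcon
      push Not at hcon
      have : δ z ≤ Finset.univ.sup δ := Finset.le_sup (Finset.mem_univ z)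
      rw [show β = 0 from Finsupp.ext hcon, map_zero] at h
      omega
    set β' := β - Finsupp.single l 1
    have hb : β = Finsupp.single l 1 + β' :=
      (add_tsub_cancel_of_le (Finsupp.single_le_iff.2 (by omega))).symm
    rw [hb, map_add, Finsupp.degree_single] at h
    rw [hb, monomial_single_add, pow_one, mul_smul, show d = δ z + 2 * β'.degree + 2 by omega]
    exact par_cycle f F ψ hf hsyz hc l (monomial_MA f F (hδ z).1 _ β' rfl _)
      (by rw [map_smul, (hδ z).2, smul_zero])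
  · exact zero_mem _

end Vale.Agent.P200.Quad
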