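import Mathlib

/-! Leading sets of the subspaces of a module with a basis indexed by subsets. -/

namespace Vale.Agent.P200.Quad

open Finset Module

section

variable {c : ℕ}

/-- The weight giving the order on the subsets. -/
def wgt (S : Finset (Fin c)) : ℕ := ∑ i ∈ S, 2 ^ (i : ℕ)

lemma wgt_injective : Function.Injective (wgt (c := c)) := by
  intro S T h
  have e : ∀ U : Finset (Fin c), wgt U = ∑ i ∈ U.map Fin.valEmbedding, 2 ^ i := fun U => by
    simp [wgt]
  rw [e, e] at h
  exact Finset.map_injective _ (Finset.geomSum_injective le_rfl h)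

lemma wgt_insert {S : Finset (Fin c)} {k : Fin c} (h : k ∉ S) :
    wgt (insert k S) = 2 ^ (k : ℕ) + wgt S := Finset.sum_insert h

variable {D : Type*} [DivisionRing D] {V : Type*} [AddCommGroup V] [Module D V]
  (b : Basis (Finset (Fin c)) D V)

/-- `S` is the leading set of `v`. -/
def IsLead (v : V) (S : Finset (Fin c)) : Prop :=
  b.repr v S ≠ 0 ∧ ∀ R, b.repr v R ≠ 0 → wgt R ≤ wgt S

/-- The part of the space in degree `d`. -/
def degPart (d : ℕ) : Submodule D V := Submodule.span D (b '' {S | S.card = d})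

lemma mem_degPart {d : ℕ} {v : V} :
    v ∈ degPart b d ↔ ∀ R, b.repr v R ≠ 0 → R.card = d := by
  rw [degPart, Basis.mem_span_image]
  exact ⟨fun h R hR => h (Finsupp.mem_support_iff.mpr hR),
    fun h R hR => h R (Finsupp.mem_support_iff.mp hR)⟩

open Classical in
/-- The leading sets in degree `d`. -/
noncomputable def leadSets (U : Submodule D V) (d : ℕ) : Finset (Finset (Fin c)) :=
  Finset.univ.filter fun S => ∃ v ∈ U ⊓ degPart b d, IsLead b v S

lemma mem_leadSets {U : Submodule D V} {d : ℕ} {S : Finset (Fin c)} :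
    S ∈ leadSets b U d ↔ ∃ v ∈ U ⊓ degPart b d, IsLead b v S := by
  simp [leadSets]

lemma card_of_mem {U : Submodule D V} {d : ℕ} {S : Finset (Fin c)} (h : S ∈ leadSets b U d) :
    S.card = d := by
  obtain ⟨v, hv, h1, -⟩ := (mem_leadSets b).mp h
  exact (mem_degPart b).mp hv.2 S h1

lemma exists_lead {v : V} (hv : v ≠ 0) : ∃ S, IsLead b v S := by
  have hne : (b.repr v).support.Nonempty := by simp [hv]
  obtain ⟨S, hS, hmax⟩ := (b.repr v).support.exists_max_image wgt hne
  exact ⟨S, Finsupp.mem_support_iff.mp hS, fun R hR => hmax R (Finsupp.mem_support_iff.mpr hR)⟩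

lemma card_leadSets (U : Submodule D V) (d : ℕ) :
    (leadSets b U d).card = finrank D ↥(U ⊓ degPart b d) := by
  classical
  have hex : ∀ S : {S // S ∈ leadSets b U d}, ∃ v ∈ U ⊓ degPart b d, IsLead b v S.1 :=
    fun S => (mem_leadSets b).mp S.2
  choose w hw hl using hex
  have hli : LinearIndependent D w := by
    rw [Fintype.linearIndependent_iff]
    intro g hg
    by_contra hne
    push Not at hne
    obtain ⟨i, hi⟩ := hne
    obtain ⟨S, hS, hmax⟩ := (Finset.univ.filter fun j => g j ≠ 0).exists_max_image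
      (fun j => wgt j.1) ⟨i, by simp [hi]⟩
    have h0 : b.repr (∑ j, g j • w j) S.1 = 0 := by rw [hg]; simp
    rw [map_sum, Finsupp.finsetSum_apply, Finset.sum_eq_single S] at h0
    · rw [map_smul, Finsupp.smul_apply, smul_eq_mul] at h0
      rcases mul_eq_zero.mp h0 with h | h
      · exact (Finset.mem_filter.mp hS).2 h
      · exact (hl S).1 h
    · intro j _ hjS
      rw [map_smul, Finsupp.smul_apply, smul_eq_mul]
      by_cases hg0 : g j = 0
      · rw [hg0, zero_mul]
      by_cases hr : b.repr (w j) S.1 = 0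
      · rw [hr, mul_zero]
      exfalso
      exact hjS (Subtype.ext (wgt_injective
        (le_antisymm (hmax j (by simp [hg0])) ((hl j).2 S.1 hr))))
    · intro h; exact absurd (Finset.mem_univ S) h
  have key : ∀ n, ∀ v ∈ U ⊓ degPart b d, (∀ R, b.repr v R ≠ 0 → wgt R < n) →
      v ∈ Submodule.span D (Set.range w) := by
    intro n
    induction n using Nat.strong_induction_on with
    | _ n IH =>
      intro v hv hb
      by_cases hv0 : v = 0
      · rw [hv0]; exact Submodule.zero_mem _
      obtain ⟨S, hS⟩ := exists_lead b hv0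
      have hmem : S ∈ leadSets b U d := (mem_leadSets b).mpr ⟨v, hv, hS⟩
      set r := b.repr v S * (b.repr (w ⟨S, hmem⟩) S)⁻¹ with hr
      have hsub : v - r • w ⟨S, hmem⟩ ∈ Submodule.span D (Set.range w) := by
        refine IH (wgt S) (hb S hS.1) _
          (Submodule.sub_mem _ hv (Submodule.smul_mem _ _ (hw _))) fun R hR => ?_
        have hle : wgt R ≤ wgt S := by
          by_contra hlt
          apply hR
          have h1 : b.repr v R = 0 := by
            by_contra h; exact hlt (hS.2 R h)
          have h2 : b.repr (w ⟨S, hmem⟩) R = 0 := by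
            by_contra h; exact hlt ((hl ⟨S, hmem⟩).2 R h)
          simp [h1, h2]
        refine lt_of_le_of_ne hle fun e => hR ?_
        rw [wgt_injective e]
        have hne : b.repr (w ⟨S, hmem⟩) S ≠ 0 := (hl ⟨S, hmem⟩).1
        simp [r, inv_mul_cancel₀ hne, mul_assoc]
      have := Submodule.add_mem _ hsub
        (Submodule.smul_mem _ r (Submodule.subset_span (Set.mem_range_self ⟨S, hmem⟩)))
      rwa [sub_add_cancel] at this
  have hspan : Submodule.span D (Set.range w) = U ⊓ degPart b d := by
    refine le_antisymm (Submodule.span_le.mpr ?_) fun v hv => ?_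
    · rintro _ ⟨j, rfl⟩; exact hw j
    · exact key ((Finset.univ.sup wgt) + 1) v hv fun R _ =>
        Nat.lt_succ_of_le (Finset.le_sup (Finset.mem_univ R))
  rw [← hspan, finrank_span_eq_card hli, Fintype.card_coe]

variable {b}

lemma repr_map {ρ : Fin c → V →ₗ[D] V}
    (hb : ∀ k S, k ∈ S → ρ k (b S) = 0)
    {ε : Fin c → Finset (Fin c) → D}
    (hε : ∀ k S, k ∉ S → ρ k (b S) = ε k S • b (insert k S))
    (k : Fin c) (v : V) (R : Finset (Fin c)) :
    b.repr (ρ k v) R = if k ∈ R then b.repr v (R.erase k) * ε k (R.erase k) else 0 := by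
  classical
  conv_lhs => rw [← b.sum_repr v]
  rw [map_sum, map_sum, Finsupp.finsetSum_apply]
  have term : ∀ S : Finset (Fin c), b.repr (ρ k (b.repr v S • b S)) R
      = if k ∉ S ∧ R = insert k S then b.repr v S * ε k S else 0 := by
    intro S
    rw [map_smul]
    by_cases hk : k ∈ S
    · rw [hb k S hk]; simp [hk]
    · rw [hε k S hk, map_smul, map_smul, Basis.repr_self, Finsupp.smul_apply, Finsupp.smul_apply,
        Finsupp.single_apply]
      by_cases hR : R = insert k S
      · simp [hk, hR]
      · simp [hk, hR, Ne.symm hR]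
  rw [Finset.sum_congr rfl fun S _ => term S]
  by_cases hk : k ∈ R
  · rw [if_pos hk, Finset.sum_eq_single (R.erase k)]
    · rw [if_pos]; exact ⟨Finset.notMem_erase k R, (Finset.insert_erase hk).symm⟩
    · intro S _ hne
      rw [if_neg]
      rintro ⟨h1, rfl⟩
      exact hne (Finset.erase_insert h1).symm
    · intro h; exact absurd (Finset.mem_univ _) h
  · rw [if_neg hk]
    refine Finset.sum_eq_zero fun S _ => ?_
    rw [if_neg]
    rintro ⟨-, rfl⟩
    exact hk (Finset.mem_insert_self k S)

end

/-- Leading sets: their number is the dimension, and stability under the maps `ρ` passes to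
them. -/
theorem exists_leadSets {c : ℕ} {D : Type*} [DivisionRing D] {V : Type*} [AddCommGroup V]
    [Module D V] (b : Basis (Finset (Fin c)) D V) (ρ : Fin c → V →ₗ[D] V)
    (hb : ∀ k S, k ∈ S → ρ k (b S) = 0)
    (hb' : ∀ k S, k ∉ S → ∃ ε : D, ε ≠ 0 ∧ ρ k (b S) = ε • b (insert k S)) :
    ∃ T : Submodule D V → ℕ → Finset (Finset (Fin c)),
      (∀ U d, (∀ S ∈ T U d, S.card = d) ∧
        (T U d).card = finrank D ↥(U ⊓ Submodule.span D (b '' {S | S.card = d}))) ∧
      (∀ U U', U ≤ U' → ∀ d, T U d ⊆ T U' d) ∧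
      ∀ U, (∀ k, U.map (ρ k) ≤ U) → ∀ d, ∀ S ∈ T U d, ∀ k ∉ S, insert k S ∈ T U (d + 1) := by
  classical
  refine ⟨leadSets b, fun U d => ⟨fun S hS => card_of_mem b hS, card_leadSets b U d⟩, ?_, ?_⟩
  · intro U U' hUU' d S hS
    obtain ⟨v, hv, hl⟩ := (mem_leadSets b).mp hS
    exact (mem_leadSets b).mpr ⟨v, ⟨hUU' hv.1, hv.2⟩, hl⟩
  intro U hU d S hS k hk
  obtain ⟨v, hv, hl⟩ := (mem_leadSets b).mp hS
  choose ε hε0 hε using hb'
  let ε' : Fin c → Finset (Fin c) → D := fun k S => if h : k ∉ S then ε k S h else 0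
  have hrepr := repr_map (b := b) hb (ε := ε') (fun k S h => by
    simp only [ε', dif_pos h]; exact hε k S h) k v
  refine (mem_leadSets b).mpr ⟨ρ k v, ⟨hU k ⟨v, hv.1, rfl⟩, (mem_degPart b).mpr ?_⟩, ?_, ?_⟩
  · intro R hR
    rw [hrepr] at hR
    by_cases hkR : k ∈ R
    · rw [if_pos hkR] at hR
      have := (mem_degPart b).mp hv.2 _ (left_ne_zero_of_mul hR)
      rw [Finset.card_erase_of_mem hkR] at this
      have := Finset.card_pos.mpr ⟨k, hkR⟩
      omega
    · simp [hkR] at hR
  · rw [hrepr, if_pos (Finset.mem_insert_self k S), Finset.erase_insert hk]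
    refine mul_ne_zero hl.1 ?_
    simp only [ε', dif_pos hk]; exact hε0 k S hk
  · intro R hR
    rw [hrepr] at hR
    by_cases hkR : k ∈ R
    · rw [if_pos hkR] at hR
      have := hl.2 _ (left_ne_zero_of_mul hR)
      rw [← Finset.insert_erase hkR, wgt_insert (Finset.notMem_erase k R), wgt_insert hk]
      omega
    · simp [hkR] at hR

end Vale.Agent.P200.Quad
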