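import Vale.Agent.P200.Quad.Rows
import Vale.Agent.P200.Quad.Monomial
import Vale.Agent.P200.Quad.Spec

/-!
Squarefree models from a division ring factorisation.
-/

namespace Vale.Agent.P200.Quad

open MvPolynomial Module
open scoped TensorProduct

universe u

variable {K : Type u} [Field K] {n : ℕ} {D : Type u} [DivisionRing D] [Algebra K D]
variable (f : Fin n → MvPolynomial (Fin n) K) (g : Fin n → Fin n → D)

/-- The action of a linear factorisation. -/
noncomputable def act (k : Fin n) : D ⊗[K] Quo f →ₗ[D] D ⊗[K] Quo f :=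
  ∑ i, TensorProduct.AlgebraTensorModule.map (LinearMap.toSpanSingleton D D (g k i))
    (LinearMap.mulLeft K (mkA f (X i)))

lemma act_tmul (k : Fin n) (d : D) (q : Quo f) :
    act f g k (d ⊗ₜ q) = ∑ i, (d * g k i) ⊗ₜ (mkA f (X i) * q) := by
  simp [act, LinearMap.sum_apply]

variable (hanti : ∀ k l, k ≠ l → ∀ i j, g k i * g l j + g l j * g k i = 0)

include hanti in
lemma act_anticomm {k l : Fin n} (h : k ≠ l) (v : D ⊗[K] Quo f) :
    act f g l (act f g k v) + act f g k (act f g l v) = 0 := by
  induction v using TensorProduct.induction_on with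
  | zero => simp
  | tmul d q =>
    simp only [act_tmul, map_sum]
    rw [Finset.sum_comm (γ := Fin n) (f := fun i j => (d * g l i * g k j) ⊗ₜ[K] _),
      ← Finset.sum_add_distrib]
    refine Finset.sum_eq_zero fun i _ => ?_
    rw [← Finset.sum_add_distrib]
    refine Finset.sum_eq_zero fun j _ => ?_
    rw [mul_left_comm (mkA f (X i)), ← TensorProduct.add_tmul, mul_assoc, mul_assoc, ← mul_add,
      hanti k l h, mul_zero, TensorProduct.zero_tmul]
  | add a b ha hb =>
    simp only [map_add]
    rw [show ∀ p q r s : D ⊗[K] Quo f, (p + q) + (r + s) = (p + r) + (q + s) from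
      fun p q r s => by abel, ha, hb, add_zero]

variable (z : Fin n → Fin n → D) (a : Fin n → Fin n → Fin n → K)
  (ha : ∀ l, f l = ∑ i, ∑ j, a l i j • (X i * X j : MvPolynomial (Fin n) K))
  (hsq : ∀ k i, g k i * g k i = ∑ l, a l i i • z k l)
  (hpol : ∀ k i j, g k i * g k j + g k j * g k i = ∑ l, (a l i j + a l j i) • z k l)

include ha hsq hpol in
lemma act_act (k : Fin n) (v : D ⊗[K] Quo f) : act f g k (act f g k v) = 0 := by
  induction v using TensorProduct.induction_on with
  | zero => simp
  | tmul d q =>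
    simp only [act_tmul, map_sum]
    let w : Fin n → Fin n → Quo f := fun i j => mkA f (X j) * (mkA f (X i) * q)
    show ∑ i, ∑ j, (d * g k i * g k j) ⊗ₜ[K] w i j = 0
    have hw : ∀ i j, w i j = w j i := fun i j => mul_left_comm _ _ _
    have hz : ∑ i, ∑ j, (d * ∑ l, a l i j • z k l) ⊗ₜ[K] w i j = 0 := by
      rw [show ∑ i, ∑ j, (d * ∑ l, a l i j • z k l) ⊗ₜ[K] w i j =
          ∑ l, (d * z k l) ⊗ₜ[K] ∑ i, ∑ j, a l i j • w i j by
        symm
        simp only [Finset.mul_sum, TensorProduct.sum_tmul, TensorProduct.tmul_sum, mul_smul_comm,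
          TensorProduct.smul_tmul]
        rw [Finset.sum_comm]
        refine Finset.sum_congr rfl fun i _ => ?_
        rw [Finset.sum_comm]]
      refine Finset.sum_eq_zero fun l _ => ?_
      have he : ∑ i, ∑ j, a l i j • w i j = mkA f (f l) * q := by
        rw [ha l, map_sum, Finset.sum_mul]
        refine Finset.sum_congr rfl fun i _ => ?_
        rw [map_sum, Finset.sum_mul]
        refine Finset.sum_congr rfl fun j _ => ?_
        rw [map_smul, smul_mul_assoc, show mkA f (X i * X j) = mkA f (X i) * mkA f (X j) from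
          map_mul (Ideal.Quotient.mkₐ K (Ideal.span (Set.range f))) _ _, mul_assoc, hw]
      rw [he, show mkA f (f l) = 0 from
        Ideal.Quotient.eq_zero_iff_mem.2 (Ideal.subset_span ⟨l, rfl⟩), zero_mul,
        TensorProduct.tmul_zero]
    suffices h : ∑ i, ∑ j, (d * g k i * g k j) ⊗ₜ[K] w i j -
        ∑ i, ∑ j, (d * ∑ l, a l i j • z k l) ⊗ₜ[K] w i j = 0 by rwa [hz, sub_zero] at h
    simp only [← Finset.sum_sub_distrib, ← TensorProduct.sub_tmul, mul_assoc, ← mul_sub,
      ← Finset.sum_product']
    refine Finset.sum_involution (fun p _ => (p.2, p.1)) ?_ ?_ (fun p _ => by simp) (fun p _ => rfl)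
    · rintro ⟨i, j⟩ -
      rw [hw j i, ← TensorProduct.add_tmul, ← mul_add]
      have : g k i * g k j - ∑ l, a l i j • z k l + (g k j * g k i - ∑ l, a l j i • z k l) = 0 := by
        rw [sub_add_sub_comm, hpol, ← Finset.sum_add_distrib, sub_eq_zero]
        exact Finset.sum_congr rfl fun l _ => add_smul _ _ _
      rw [this, mul_zero, TensorProduct.zero_tmul]
    · rintro ⟨i, j⟩ - hne heq
      simp only [Prod.mk.injEq] at heq
      obtain ⟨rfl, -⟩ := heq
      exact hne (by simp [hsq])
  | add x y hx hy => simp [hx, hy]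

/-- Products of factorisations along a list. -/
noncomputable def word (l : List (Fin n)) : D ⊗[K] Quo f :=
  l.foldr (fun k v => act f g k v) (1 ⊗ₜ 1)

lemma word_cons (k : Fin n) (l : List (Fin n)) : word f g (k :: l) = act f g k (word f g l) := rfl

include hanti in
lemma word_perm {l l' : List (Fin n)} (h : l.Perm l') :
    ∃ e : D, e ≠ 0 ∧ word f g l = e • word f g l' := by
  induction h with
  | nil => exact ⟨1, one_ne_zero, (one_smul _ _).symm⟩
  | cons k _ ih =>
    obtain ⟨e, he, h⟩ := ih
    exact ⟨e, he, by rw [word_cons, word_cons, h, map_smul]⟩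
  | swap x y l =>
    by_cases h : x = y
    · exact ⟨1, one_ne_zero, by rw [h, one_smul]⟩
    · refine ⟨-1, neg_ne_zero.2 one_ne_zero, ?_⟩
      simp only [word_cons]
      exact (eq_neg_of_add_eq_zero_left (act_anticomm f g hanti h _)).trans (neg_one_smul D _).symm
  | trans _ _ ih₁ ih₂ =>
    obtain ⟨e, he, h⟩ := ih₁
    obtain ⟨e', he', h'⟩ := ih₂
    exact ⟨e * e', mul_ne_zero he he', by rw [h, h', smul_smul]⟩

include hanti ha hsq hpol in
lemma act_word_of_mem {k : Fin n} : ∀ {l : List (Fin n)}, k ∈ l → act f g k (word f g l) = 0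
  | j :: l, h => by
    rw [word_cons]
    by_cases hjk : j = k
    · subst hjk
      exact act_act f g z a ha hsq hpol j _
    · have h' : k ∈ l := by
        rcases List.mem_cons.1 h with h | h
        · exact absurd h.symm hjk
        · exact h
      rw [eq_neg_of_add_eq_zero_left (act_anticomm f g hanti hjk _),
        act_word_of_mem h', map_zero, neg_zero]

/-- The squarefree word of a subset. -/
noncomputable def wordSet (S : Finset (Fin n)) : D ⊗[K] Quo f := word f g S.toList

include hanti ha hsq hpol in
lemma act_wordSet_mem {k : Fin n} {S : Finset (Fin n)} (h : k ∈ S) :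
    act f g k (wordSet f g S) = 0 :=
  act_word_of_mem f g hanti z a ha hsq hpol (Finset.mem_toList.2 h)

include hanti in
lemma act_wordSet_not_mem {k : Fin n} {S : Finset (Fin n)} (h : k ∉ S) :
    ∃ e : D, e ≠ 0 ∧ act f g k (wordSet f g S) = e • wordSet f g (insert k S) :=
  word_perm f g hanti (Finset.toList_insert h).symm

/-- The degree piece after extending the scalars. -/
noncomputable def piece (d : ℕ) : Submodule D (D ⊗[K] Quo f) :=
  Submodule.span D ((fun q : Quo f => (1 : D) ⊗ₜ[K] q) '' (quoDeg f d : Set (Quo f)))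

lemma tmul_mem_piece {d : ℕ} (x : D) {q : Quo f} (hq : q ∈ quoDeg f d) :
    x ⊗ₜ[K] q ∈ piece f d (D := D) := by
  rw [show x ⊗ₜ[K] q = x • ((1 : D) ⊗ₜ[K] q) by simp [TensorProduct.smul_tmul']]
  exact Submodule.smul_mem _ _ (Submodule.subset_span ⟨q, hq, rfl⟩)

lemma act_piece (k : Fin n) {d : ℕ} {v : D ⊗[K] Quo f} (hv : v ∈ piece f d) :
    act f g k v ∈ piece f (d + 1) := by
  induction hv using Submodule.span_induction with
  | mem x hx =>
    obtain ⟨q, hq, rfl⟩ := hx
    rw [act_tmul]
    exact sum_mem fun i _ => tmul_mem_piece f _ (mkA_X_mul_mem f i hq)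
  | zero => simp
  | add x y _ _ hx hy => rw [map_add]; exact add_mem hx hy
  | smul e x _ hx => rw [map_smul]; exact Submodule.smul_mem _ _ hx

lemma one_mem_quoDeg : (1 : Quo f) ∈ quoDeg f 0 :=
  ⟨1, isHomogeneous_one _ _, map_one (Ideal.Quotient.mkₐ K (Ideal.span (Set.range f)))⟩

lemma word_mem_piece : ∀ l : List (Fin n), word f g l ∈ piece f l.length
  | [] => tmul_mem_piece f 1 (one_mem_quoDeg f)
  | k :: l => by rw [word_cons]; exact act_piece f g k (word_mem_piece l)

lemma wordSet_mem_piece (S : Finset (Fin n)) : wordSet f g S ∈ piece f S.card := by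
  have := word_mem_piece f g S.toList
  rwa [Finset.length_toList] at this

/-- The span of the words of length `d`. -/
noncomputable def wspan (d : ℕ) : Submodule D (D ⊗[K] Quo f) :=
  Submodule.span D (wordSet f g '' {S | S.card = d})

variable (E : Fin n → Fin n → D) (hE : ∀ i j, ∑ k, E i k * g k j = if i = j then 1 else 0)

include hanti ha hsq hpol in
lemma act_wspan (k : Fin n) {d : ℕ} {v : D ⊗[K] Quo f} (hv : v ∈ wspan f g d) :
    act f g k v ∈ wspan f g (d + 1) := by
  induction hv using Submodule.span_induction with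
  | mem x hx =>
    obtain ⟨S, hS, rfl⟩ := hx
    by_cases h : k ∈ S
    · rw [act_wordSet_mem f g hanti z a ha hsq hpol h]; exact zero_mem _
    · obtain ⟨e, -, he⟩ := act_wordSet_not_mem f g hanti h
      rw [he]
      refine Submodule.smul_mem _ _ (Submodule.subset_span ⟨_, ?_, rfl⟩)
      simp only [Set.mem_ofPred_eq] at hS ⊢
      rw [Finset.card_insert_of_notMem h, hS]
  | zero => simp
  | add x y _ _ hx hy => rw [map_add]; exact add_mem hx hy
  | smul e x _ hx => rw [map_smul]; exact Submodule.smul_mem _ _ hx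

include hanti ha hsq hpol hE in
lemma piece_le_wspan : ∀ d, piece f d (D := D) ≤ wspan f g d := by
  intro d
  induction d with
  | zero =>
    refine Submodule.span_le.2 ?_
    rintro _ ⟨q, ⟨u, hu, rfl⟩, rfl⟩
    rw [show u = C (coeff 0 u) from totalDegree_eq_zero_iff_eq_C.1 (Nat.le_zero.1 hu.totalDegree_le),
      C_eq_smul_one]
    simp only [map_smul, SetLike.mem_coe, TensorProduct.tmul_smul]
    refine Submodule.smul_of_tower_mem _ _ (Submodule.subset_span ⟨∅, Finset.card_empty, ?_⟩)
    simp only [wordSet, Finset.toList_empty, word, List.foldr_nil]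
    rw [show mkA f 1 = 1 from map_one (Ideal.Quotient.mkₐ K (Ideal.span (Set.range f)))]
  | succ d ih =>
    refine Submodule.span_le.2 ?_
    rintro _ ⟨q, ⟨u, hu, rfl⟩, rfl⟩
    have hu' : u ∈ homogeneousSubmodule (Fin n) K d * homogeneousSubmodule (Fin n) K 1 := by
      rw [← homogeneousSubmodule_one_pow (σ := Fin n) (R := K) d, ← pow_succ, homogeneousSubmodule_one_pow]
      exact hu
    clear hu
    induction hu' using Submodule.mul_induction_on' with
    | mem_mul_mem x hx y hy =>
      rw [homogeneousSubmodule_one_eq_span_X] at hy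
      induction hy using Submodule.span_induction with
      | mem y hy =>
        obtain ⟨i, rfl⟩ := hy
        have key : ∑ k, act f g k (E i k ⊗ₜ[K] mkA f x) = (1 : D) ⊗ₜ[K] mkA f (x * X i) := by
          simp only [act_tmul]
          rw [Finset.sum_comm]
          simp only [← TensorProduct.sum_tmul, hE]
          rw [Finset.sum_eq_single i (fun j _ hj => by simp [Ne.symm hj]) (by simp), if_pos rfl,
            mul_comm x, show mkA f (X i * x) = mkA f (X i) * mkA f x from
            map_mul (Ideal.Quotient.mkₐ K (Ideal.span (Set.range f))) _ _]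
        show (1 : D) ⊗ₜ[K] mkA f (x * X i) ∈ wspan f g (d + 1)
        rw [← key]
        exact sum_mem fun k _ => act_wspan f g hanti z a ha hsq hpol k
          (ih (tmul_mem_piece f _ ⟨x, hx, rfl⟩))
      | zero => simp
      | add y y' _ _ hy hy' =>
        simp only [SetLike.mem_coe] at hy hy' ⊢
        rw [mul_add, map_add, TensorProduct.tmul_add]; exact add_mem hy hy'
      | smul c y _ hy =>
        simp only [SetLike.mem_coe] at hy ⊢
        rw [mul_smul_comm, map_smul, TensorProduct.tmul_smul]
        exact Submodule.smul_of_tower_mem _ _ hy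
    | add x _ y _ hx hy =>
      simp only [SetLike.mem_coe] at hx hy ⊢
      rw [map_add, TensorProduct.tmul_add]; exact add_mem hx hy

include hanti ha hsq hpol hE in
lemma wspan_eq_piece (d : ℕ) : wspan f g d = piece f d := by
  refine le_antisymm (Submodule.span_le.2 ?_) (piece_le_wspan f g hanti z a ha hsq hpol E hE d)
  rintro _ ⟨S, hS, rfl⟩
  exact hS ▸ wordSet_mem_piece f g S

end Vale.Agent.P200.Quad
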